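import Vale.Agent.P366IV.Mf
import Vale.Agent.P366OC.Jet
import Vale.Agent.P366OC.Tay
import Vale.Agent.P366OC.Cht
import Vale.Agent.P366OC.Far
import Vale.Agent.P366RY.Ray

/-!
# P366IV: trapped sets are invisible
-/

open Set Filter Topology Metric
open scoped RealInnerProductSpace ContDiff
open Vale.Agent.P366M Vale.Agent.P366F
open Vale.Agent.P366 (Stmt.pd)
open Vale.Agent.P366.Stmt (E)
open Vale.Agent.P366OC (ham jet tay cht)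

noncomputable section

namespace Vale.Agent.P366IV

variable {n : ℕ} {M : Type} [Mfe n M] {Z : Dat n M} {ρ τ : ℝ} {e : Ch n M} {f : M → ℝ} {x : M}
  {y v : E n} {c : ℝ → M} {W : Set M}

theorem pd_ne (hg : Met Z.D.g) (he : e ∈ At M) (hf : Smooth f) :
    (∃ i, Stmt.pd i (loc e f) y ≠ 0) ↔ ∃ i, pd i f (e.symm y) ≠ 0 := by
  have k := gn_rep he Z.D.g (hf.diff (e.symm y))
  rw [← not_iff_not]
  simp only [not_exists, not_not]
  constructor <;> intro h <;> by_contra l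
  · rw [P366Z.gn_zero h] at k
    exact (Real.sqrt_pos.2 (hg.up_pos _ fun j => l (congrFun j))).ne k
  · rw [gn_zero h] at k
    exact (Real.sqrt_pos.2 ((hg.rep he).up_pos _ fun j => l (congrFun j))).ne' k

/-- an untrapped barrier at `x` whose positive side lies in `S` -/
def Gd (Z : Dat n M) (x : M) (S : Set M) : Prop := ∃ f, Smooth f ∧ f x = 0 ∧ (∃ i, pd i f x ≠ 0) ∧
  0 < thetaPlus Z.D.g Z.D.K f x ∧ ∀ᶠ y in 𝓝 x, 0 < f y → y ∈ S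

theorem Gd.to {S : Set M} (he : e ∈ At M) (h : Gd Z (e.symm y) S) (hS : e.symm y ∈ S) :
    ∃ p A, p ≠ 0 ∧ Sym A ∧ 0 < Th (Z.g e) (Z.K e) y p A ∧
      ∃ r > (0 : ℝ), ∀ w ∈ Wb p A r, e.symm (y + w) ∈ S := by
  obtain ⟨f, f1, f2, f3, f4, f5⟩ := h
  obtain ⟨p, A, k1, k2, k3, r, r0, k4⟩ := (cht n _ _ y (Z.D.met.rep he) (Z.D.smK e he)).1
    (loc e f) (f1 e he) f2 ((pd_ne Z.D.met he f1).2 f3)
    (f4.trans_eq (thetaPlus_rep Z.D.met he _ (f1.c2 _)).symm)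
  obtain ⟨δ, δ0, hδ⟩ := nhds_basis_closedBall.eventually_iff.1 ((ev_iff he).1 f5)
  refine ⟨p, A, k1, k2, k3, _, lt_min r0 δ0, fun w hw => ?_⟩
  rcases eq_or_ne w 0 with rfl | l
  · rwa [add_zero]
  · exact hδ (mem_closedBall_iff_norm.2 (by
      rw [add_sub_cancel_left]
      exact hw.2.trans (min_le_right _ _))) (k4 w (wb_mono (min_le_left _ _) hw) l)

theorem Gd.of {S : Set M} (he : e ∈ At M) {p : E n} {A : Op n} (p0 : p ≠ 0) (sy : Sym A)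
    (h : 0 < Th (Z.g e) (Z.K e) y p A) (k : ∀ᶠ w in 𝓝 (0 : E n), 0 < Pq p A w → e.symm (y + w) ∈ S) :
    Gd Z (e.symm y) S := by
  obtain ⟨u, u1, u2, u3, u4, u5⟩ := (cht n _ _ y (Z.D.met.rep he) (Z.D.smK e he)).2 p A p0 sy
  have sm : Smooth (zx e u) := cd_zx le_rfl he (isCompact_closedBall y 2) u2 u1
  refine ⟨zx e u, sm, by simp [zx_symm he, u3 y (mem_ball_self one_pos), Pq],
    (pd_ne Z.D.met he sm).1 (by rwa [loc_zx he]), ?_, (ev_iff he).2 ?_⟩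
  · rwa [← thetaPlus_rep Z.D.met he _ (sm.c2 _), loc_zx he, u5]
  · filter_upwards [ball_mem_nhds y one_pos, (tendsto_sub_nhds_zero_iff.2 tendsto_id).eventually k]
      with w k1 k2
    rwa [zx_symm he, u3 w k1, ← add_sub_cancel y w, add_sub_cancel_left]

/-- the barriers propagate to the past along the minimizer -/
theorem loc_step (hZ : Z.Ok) (hb : Z.Bnd) (hn : Z.Ncc)
    (A : Adm (CC Z ρ) {φ | Smooth φ} (HM Z) c 0 τ) (hτ : ∀ t < τ, ∀ x ∈ RS Z ρ t, x ∉ Z.Uᶜ)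
    (hm : ∀ s ∈ Icc 0 τ, c s ∈ RS Z ρ (τ - s) ∧ ∀ t < τ - s, c s ∉ RS Z ρ t) {s : ℝ}
    (hs : s ∈ Icc 0 τ) (hr : ‖px (c s)‖ < ρ + 1) : ∃ δ > (0 : ℝ), ∀ a b, 0 ≤ a → a < b → b ≤ τ →
      s - δ < a → b < s + δ → Gd Z (c b) (RS Z ρ (τ - b) ∩ Z.U) →
        Gd Z (c a) (RS Z ρ (τ - a) ∩ Z.U) := by
  have he := ch_mem (c s)
  obtain ⟨η, η0, hη⟩ := nhds_basis_closedBall.eventually_iff.1
    (ev_pt.1 (cont_npx.continuousAt.eventually (gt_mem_nhds hr)))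
  obtain ⟨C, F⟩ := fr hZ hb hn he (isCompact_closedBall _ η) (fun y m => hη m) hτ
  obtain ⟨Δ, Δ0, hΔ⟩ := step jet P366RY.ray tay ham F
  obtain ⟨δ, δ0, hδ⟩ := Metric.eventually_nhds_iff.1 (eventually_nhdsWithin_iff.1
    ((A.cont s hs).eventually (((ch (c s)).open_source.eventually_mem (mem_ch _)).and
      (((ch (c s)).continuousAt (mem_ch _)).eventually (ball_mem_nhds _ (half_pos η0))))))
  refine ⟨_, lt_min δ0 (half_pos Δ0), fun a b a0 ab bτ k1 k2 gd => ?_⟩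
  have m1 := min_le_left δ (Δ / 2)
  have m2 := min_le_right δ (Δ / 2)
  have ss : Icc a b ⊆ Icc 0 τ := Icc_subset_Icc a0 bτ
  have hc := fun r (m : r ∈ Icc a b) => hδ (y := r) (Real.dist_eq r s ▸ abs_lt.2
    ⟨by linarith [m.1], by linarith [m.2]⟩) (ss m)
  have li := fun r m => (ch (c s)).left_inv (hc r m).1
  have hU : ∀ r ∈ Ioc a b, c r ∈ Z.U := fun r m => not_not.1
    (hτ _ (by linarith [m.1]) _ (hm r (ss (Ioc_subset_Icc_self m))).1)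
  have mb : b ∈ Icc a b := ⟨ab.le, le_rfl⟩
  have := cv (τ := τ) he (P366CU.adm_mono A a0 bτ) a0 (half_pos η0) hc fun r m => (hm r (ss m)).2
  rw [add_halves] at this
  obtain ⟨p, B, p0, sy, θ, r, r0, k⟩ := Gd.to he ((li b mb).symm ▸ gd)
    ((li b mb).symm ▸ ⟨(hm b (ss mb)).1, hU b ⟨ab, le_rfl⟩⟩)
  obtain ⟨p', B', j1, j2, j3, j4⟩ := hΔ _ a b _ r p B this (fun t m => mem_preimage.2
    ((li t (Ioc_subset_Icc_self m)).symm ▸ hU t m)) ab (by linarith) p0 sy r0 θ fun w l => (k w l).1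
  exact li a ⟨le_rfl, ab.le⟩ ▸ Gd.of he j1 j2 j3 j4

/-- **invisibility** -/
theorem invis (hZ : Z.Ok) (hb : Z.Bnd) (hn : Z.Ncc) (hv : Z.V1c) : ∃ ρ : ℝ,
    (∀ x : M, ρ ≤ ‖px x‖ → x ∈ Z.U) ∧ ∀ t, RS Z ρ t ⊆ Z.U := by
  obtain ⟨R1, h1⟩ := hZ.far
  obtain ⟨R2, h2⟩ := P366OC.far n M Z ∅ hZ
  obtain ⟨ρ, ρ1, ρ2, ρ0⟩ : ∃ ρ, R1 < ρ ∧ R2 ≤ ρ ∧ 0 ≤ ρ := ⟨max (max (R1 + 1) R2) 0,
    by simp, by simp, by simp⟩
  have hU : ∀ x : M, ρ ≤ ‖px x‖ → x ∈ Z.U := fun x k => h1 x (ρ1.trans_le k)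
  refine ⟨ρ, hU, fun t x hx => by_contra fun k => ?_⟩
  obtain ⟨τ, c, τ0, A, c0, c1, hτ, hm⟩ := (cur' hZ ρ).2.2.2.2 ⟨x, k, t, hx⟩
  have τ1 : 0 < τ := τ0.lt_of_ne fun l => c0 (hU _ (l ▸ c1))
  have mτ : τ ∈ Icc 0 τ := ⟨τ0, le_rfl⟩
  have r1 : ∀ s ∈ Ico 0 τ, ‖px (c s)‖ ≤ ρ := fun s m => (not_le.1 fun l => (hm s
    (Ico_subset_Icc_self m)).2 0 (sub_pos.2 m.2) (rs_zero hZ (A.mem (Ico_subset_Icc_self m)) l)).le
  have r2 : ‖px (c τ)‖ ≤ ρ := by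
    have := right_nhdsWithin_Ico_neBot τ1
    exact le_of_tendsto (cont_npx.continuousAt.tendsto.comp
      ((A.cont τ mτ).mono Ico_subset_Icc_self)) (eventually_mem_nhdsWithin.mono r1)
  have st := fun s (m : s ∈ Icc 0 τ) => loc_step hZ hb hn A hτ hm m (by
    rcases m.2.eq_or_lt with l | l
    exacts [by rw [l]; linarith, by linarith [r1 s ⟨m.1, l⟩]])
  refine (back (p := fun s => Gd Z (c s) (RS Z ρ (τ - s) ∩ Z.U)) (a := 0) (b := τ) ?_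
    (fun s m k => ?_) (fun s m k => ?_) 0 ⟨le_rfl, τ0⟩).elim fun f ⟨f1, f2, f3, f4, f5⟩ =>
      f4.not_ge (hv f _ f1 c0 f2 f3 (f5.mono fun y l j => not_lt.1 fun i => j (l i).2))
  · obtain ⟨k1, k2⟩ := h2 (c τ) (ρ2.trans c1)
    refine ⟨fun z => ‖px z‖ ^ 2 - ρ ^ 2, CD.sub (cd_px (contDiff_norm_sq ℝ) le_rfl) cd_const,
      by simp [le_antisymm r2 c1], by simpa only [pd_sub_const] using k1,
      by simpa only [thetaPlus, trS, tr, nrm, covNorm, pd_sub_const, hess_sub_const] using k2, ?_⟩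
    filter_upwards [cont_npx.continuousAt.eventually (gt_mem_nhds (r2.trans_lt (lt_add_one ρ)))]
      with z k1 k2
    have k3 : ρ ≤ ‖px z‖ := (pow_lt_pow_iff_left₀ ρ0 (norm_nonneg _) two_ne_zero).1
      (sub_pos.1 k2) |>.le
    exact ⟨sub_self τ ▸ rs_zero hZ ⟨(hZ.sub _ (hU z k3)).le, k1.le⟩ k3, hU z k3⟩
  · obtain ⟨δ, δ0, h⟩ := st s (Ico_subset_Icc_self m)
    obtain ⟨b, b1, b2⟩ := exists_between (lt_min m.2 (lt_add_of_pos_right s δ0))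
    have b3 := lt_min_iff.1 b2
    exact h s b m.1 b1 b3.1.le (by linarith) b3.2 (k b ⟨b1, b3.1.le⟩)
  · obtain ⟨δ, δ0, h⟩ := st s (Ioc_subset_Icc_self m)
    filter_upwards [Ioo_mem_nhdsLT (max_lt m.1 (sub_lt_self s δ0))] with r l
    have l1 := max_lt_iff.1 l.1
    exact h r s l1.1.le l.2 m.2 l1.2 (by linarith) (k s ⟨le_rfl, m.2⟩)

theorem vis_of (hZ : Z.Ok) {x z : M} {t : ℝ} (h : RR Z ρ x z t)
    (k : ρ ≤ ‖px z‖ ∨ ∃ t, z ∈ RS Z ρ t) : ρ ≤ ‖px x‖ ∨ ∃ t, x ∈ RS Z ρ t :=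
  .inr (k.elim (fun l => ⟨t, z, l, h⟩) fun ⟨_, l⟩ => ⟨_, rs_of hZ h l⟩)

theorem near (hZ : Z.Ok) (hx : x ∈ Z.U) (hl : 0 < Z.lam x) (hr : ‖px x‖ < ρ + 1) :
    ∀ᶠ z in 𝓝 x, ∃ t, RR Z ρ x z t ∧ RR Z ρ z x t := by
  have he := ch_mem x
  have h := segU (ρ := ρ) (y := pt x) (v := 0) hZ he (by simpa using hx) (by simpa using hr) (by
    have := lam_loc Z he (pt x)
    rw [symm_pt] at this
    simpa [P366RB.sq] using sub_pos.1 (hl.trans_eq this))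
  obtain ⟨t, t1, t0⟩ := ((((Continuous.tendsto' (f := fun t : ℝ => (pt x, (0 : E n), t))
    (by fun_prop) 0 _ rfl).eventually h.eventually_nhds).filter_mono nhdsWithin_le_nhds).and
    (self_mem_nhdsWithin (s := Ioi 0))).exists
  have t2 : 0 < t := t0
  rw [ev_pt]
  filter_upwards [(Continuous.tendsto' (f := fun w : E n => (pt x, t⁻¹ • (w - pt x), t))
    (by fun_prop) _ _ (by simp)).eventually t1, (Continuous.tendsto'
      (f := fun w : E n => (w, t⁻¹ • (pt x - w), t)) (by fun_prop) _ _ (by simp)).eventually t1]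
    with w k1 k2
  exact ⟨t, by simpa [smul_smul, t2.ne'] using k1 t2.le, by simpa [smul_smul, t2.ne'] using k2 t2.le⟩

/-- **V2** -/
theorem v2 : V2 := fun n M _ Z W hZ hb hn hv hc e he y v hy hU hs hW => by
  obtain ⟨ρ, h1, h2⟩ := invis hZ hb hn hv
  obtain ⟨R, hR⟩ := hc.far
  obtain ⟨w, -, hw⟩ := exists_far (M := M) (by have := hZ.dim; omega) Mfe.o (max (R + 1) ρ)
  have hG : ∀ x ∈ W, ρ ≤ ‖px x‖ ∨ ∃ t, x ∈ RS Z ρ t := fun x hx => hc.con.induction₂'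
    (fun x z => (ρ ≤ ‖px x‖ ∨ ∃ t, x ∈ RS Z ρ t) → ρ ≤ ‖px z‖ ∨ ∃ t, z ∈ RS Z ρ t)
    (fun x hx => eventually_nhdsWithin_of_eventually_nhds (by
      rcases lt_or_ge ρ ‖px x‖ with k | k
      · exact (cont_npx.continuousAt.eventually (lt_mem_nhds k)).mono fun z l =>
          ⟨fun _ => .inl l.le, fun _ => .inl k.le⟩
      · exact (near hZ (hc.sub hx) (hc.pos x hx) (k.trans_lt (lt_add_one ρ))).mono
          fun z ⟨_, l1, l2⟩ => ⟨vis_of hZ l2, vis_of hZ l1⟩)) (fun _ _ _ _ _ _ k l j => l (k j))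
    (hR _ ((lt_add_one R).trans_le ((le_max_left _ _).trans hw))) hx
    (.inl ((le_max_right _ _).trans hw))
  have hr : ‖px (e.symm y)‖ < ρ := not_le.1 fun k => hU (h1 _ k)
  obtain ⟨u, u0, hu⟩ := mem_nhdsGT_iff_exists_Ioc_subset.1 hW
  obtain ⟨t, t1, t2⟩ := ((((Continuous.tendsto' (f := fun t : ℝ => (y, v, t)) (by fun_prop) 0 _
    rfl).eventually (seg hZ he hy (hr.trans (lt_add_one ρ)) hs)).filter_mono
      nhdsWithin_le_nhds).and (Ioc_mem_nhdsGT u0)).exists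
  refine (vis_of hZ (t1 t2.1.le fun s m => ?_) (hG _ (hu t2))).elim hr.not_ge
    fun ⟨t, k⟩ => hU (h2 t k)
  rcases m.1.eq_or_lt with k | k
  · simpa [← k] using hy
  · exact (hZ.sub _ (hc.sub (hu ⟨k, m.2.trans t2.2⟩))).le

end Vale.Agent.P366IV
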