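import Mathlib.Topology.Order.IntermediateValue
import Mathlib.Topology.Instances.Real.Lemmas
import Mathlib.Topology.Maps.Proper.Basic
import Mathlib.Topology.Order.LeftRightNhds

/-!
# P366IV: propagation of a barrier
-/

open Set Filter Topology

namespace Vale.Agent.P366IV

/-- continuous induction to the left -/
theorem back {p : ℝ → Prop} {a b : ℝ} (hb : p b)
    (cl : ∀ s ∈ Ico a b, (∀ r ∈ Ioc s b, p r) → p s)
    (ex : ∀ s ∈ Ioc a b, (∀ r ∈ Icc s b, p r) → ∀ᶠ r in 𝓝[<] s, p r) : ∀ s ∈ Icc a b, p s := by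
  intro s hs
  let A := {s ∈ Icc a b | ∀ r ∈ Icc s b, p r}
  have hA : b ∈ A := ⟨⟨hs.1.trans hs.2, le_rfl⟩, fun r m => le_antisymm m.2 m.1 ▸ hb⟩
  have bd : BddBelow A := ⟨a, fun r m => m.1.1⟩
  have i1 : a ≤ sInf A := le_csInf ⟨b, hA⟩ fun r m => m.1.1
  have i2 : sInf A ≤ b := csInf_le bd hA
  have h1 : ∀ r ∈ Ioc (sInf A) b, p r := fun r m => by
    obtain ⟨u, hu, k⟩ := exists_lt_of_csInf_lt ⟨b, hA⟩ m.1
    exact hu.2 r ⟨k.le, m.2⟩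
  have h2 : ∀ r ∈ Icc (sInf A) b, p r := fun r m => by
    rcases m.1.eq_or_lt with k | k
    · rcases m.2.eq_or_lt with l | l
      exacts [l ▸ hb, k ▸ cl _ ⟨i1, k ▸ l⟩ h1]
    · exact h1 r ⟨k, m.2⟩
  rcases i1.eq_or_lt with k | k
  · exact h2 s (k ▸ hs)
  obtain ⟨u, hu, l⟩ := (mem_nhdsLT_iff_exists_mem_Ico_Ioo_subset k).1 (ex _ ⟨k, i2⟩ h2)
  obtain ⟨v, v1, v2⟩ := exists_between hu.2
  refine absurd (csInf_le bd (show v ∈ A from ⟨⟨hu.1.trans v1.le, v2.le.trans i2⟩,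
    fun r m => ?_⟩)) (not_le.2 v2)
  rcases lt_or_ge r (sInf A) with j | j
  exacts [l ⟨v1.trans_le m.1, j⟩, h2 r ⟨j, m.2⟩]

variable {V : Type} [TopologicalSpace V]

/-- the relation `R` of being reachable and the sets `Rc` from which the end is reached -/
structure Rch (R : V → V → ℝ → Prop) (Rc : ℝ → Set V) (U : Set V) (τ : ℝ) : Prop where
  op : IsOpen U
  trans : ∀ x y z s t, R x y s → R y z t → R x z (s + t)
  cl : IsClosed {q : V × V × ℝ | R q.1 q.2.1 q.2.2}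
  rc : ∀ x y s t, R x y s → y ∈ Rc t → x ∈ Rc (s + t)
  clc : ∀ t, IsClosed (Rc t)
  mono : ∀ s t, s ≤ t → Rc s ⊆ Rc t
  sub : ∀ t < τ, Rc t ⊆ U

/-- the closed positive side -/
def Ws (f d : ℝ × V → ℝ) (s : ℝ) : Set V := {x | 0 ≤ f (s, x) ∧ 0 ≤ d (s, x)}

variable {R : V → V → ℝ → Prop} {Rc : ℝ → Set V} {U K : Set V} {τ a b : ℝ} {f d : ℝ × V → ℝ}

theorem cl_proj (hK : IsCompact K) {Z : Set (ℝ × V)} (hZ : IsClosed Z) :
    IsClosed {r | ∃ x ∈ K, (r, x) ∈ Z} := by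
  have := isCompact_iff_compactSpace.1 hK
  have := isClosedMap_fst_of_compactSpace (X := ℝ) (Y := K) _
    (hZ.preimage (f := fun q : ℝ × K => (q.1, q.2.1)) (by fun_prop))
  refine (congrArg IsClosed (Set.ext fun r => ?_)).mp this
  simp

/-- viability -/
theorem via (h : Rch R Rc U τ) (hK : IsCompact K) (hf : ContinuousOn f (Icc a b ×ˢ univ))
    (hd : ContinuousOn d (Icc a b ×ˢ univ)) (hW : ∀ s ∈ Icc a b, Ws f d s ⊆ K)
    (bar : ∀ s ∈ Ico a b, ∀ x ∈ Ws f d s, ∀ κ > (0 : ℝ), ∃ᶠ t in 𝓝[>] (0 : ℝ), ∃ y, R x y t ∧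
      f (s, x) - κ * t ≤ f (s + t, y) ∧ 0 ≤ d (s + t, y)) (hab : a ≤ b) {x : V} (h0 : R x x 0)
    (f0 : 0 < f (a, x)) (d0 : 0 ≤ d (a, x)) : ∃ y ∈ Ws f d b, R x y (b - a) := by
  obtain ⟨κ, κ0, hκ⟩ : ∃ κ > (0 : ℝ), κ * (b - a + 1) = f (a, x) :=
    ⟨f (a, x) / (b - a + 1), div_pos f0 (by linarith), div_mul_cancel₀ _ (by linarith)⟩
  have po : ∀ r ≤ b, 0 ≤ f (a, x) - κ * (r - a) := fun r m => by nlinarith
  have c0 : IsClosed (Icc a b ×ˢ (univ : Set V)) := isClosed_Icc.prod isClosed_univ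
  let Z : Set (ℝ × V) := ({q | R x q.2 (q.1 - a)} ∩
    (Icc a b ×ˢ univ ∩ (fun q => f q + κ * (q.1 - a)) ⁻¹' Ici (f (a, x)))) ∩
      (Icc a b ×ˢ univ ∩ d ⁻¹' Ici 0)
  have hZ : IsClosed Z := ((h.cl.preimage (f := fun q : ℝ × V => (x, q.2, q.1 - a))
    (by fun_prop)).inter ((hf.add (by fun_prop)).preimage_isClosed_of_isClosed c0
      isClosed_Ici)).inter (hd.preimage_isClosed_of_isClosed c0 isClosed_Ici)
  have mk : ∀ r ∈ Icc a b, ∀ y, R x y (r - a) → f (a, x) - κ * (r - a) ≤ f (r, y) →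
      0 ≤ d (r, y) → ∃ y ∈ K, (r, y) ∈ Z := fun r m y k1 k2 k3 =>
    ⟨y, hW r m ⟨(po r m.2).trans k2, k3⟩, ⟨k1, ⟨m, trivial⟩, sub_le_iff_le_add.1 k2⟩,
      ⟨m, trivial⟩, k3⟩
  obtain ⟨y, -, ⟨y1, -, y2⟩, -, y3⟩ := ((cl_proj hK hZ).inter
    isClosed_Icc).mem_of_ge_of_forall_exists_gt
    (mk a ⟨le_rfl, hab⟩ x (by rwa [sub_self]) (by simp) d0) hab fun r m => by
      obtain ⟨⟨y, -, ⟨y1, -, y2⟩, -, y3⟩, m⟩ := m
      have y4 : f (a, x) - κ * (r - a) ≤ f (r, y) := sub_le_iff_le_add.2 y2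
      obtain ⟨t, ⟨z, z1, z2, z3⟩, t1⟩ := ((bar r m y ⟨(po r m.2.le).trans y4, y3⟩ κ κ0).and_eventually
        (Ioc_mem_nhdsGT (sub_pos.2 m.2))).exists
      refine ⟨r + t, mk _ ⟨by linarith [m.1, t1.1], by linarith [t1.2]⟩ z ?_ (by linarith) z3,
        by linarith [t1.1], by linarith [t1.2]⟩
      exact (by ring : r - a + t = r + t - a) ▸ h.trans _ _ _ _ _ y1 z1
  exact ⟨y, ⟨(po b le_rfl).trans (sub_le_iff_le_add.2 y2), y3⟩, y1⟩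

/-- **PROP** -/
theorem prp (h : Rch R Rc U τ) (hK : IsCompact K) (hf : ContinuousOn f (Icc a b ×ˢ univ))
    (hd : ContinuousOn d (Icc a b ×ˢ univ)) (hW : ∀ s ∈ Icc a b, Ws f d s ⊆ K)
    (hc : ∀ s ∈ Icc a b, Ws f d s ⊆ closure {x | 0 < f (s, x) ∧ 0 < d (s, x)})
    (h0 : ∀ x ∈ K, x ∈ U → R x x 0)
    (bar : ∀ s ∈ Ico a b, Ws f d s ⊆ U → ∀ x ∈ Ws f d s, ∀ κ > (0 : ℝ), ∃ᶠ t in 𝓝[>] (0 : ℝ),
      ∃ y, R x y t ∧ f (s, x) - κ * t ≤ f (s + t, y) ∧ 0 ≤ d (s + t, y)) (ha : 0 ≤ a)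
    (hb : Ws f d b ⊆ Rc (τ - b)) : ∀ s ∈ Icc a b, Ws f d s ⊆ Rc (τ - s) := by
  have c0 : IsClosed (Icc a b ×ˢ (univ : Set V)) := isClosed_Icc.prod isClosed_univ
  refine back hb (fun s m k => (hc s (Ico_subset_Icc_self m)).trans
    ((h.clc _).closure_subset_iff.2 fun x hx => ?_)) fun s m k => ?_
  · have t : Tendsto (fun r => (r, x)) (𝓝[Ioc s b] s) (𝓝[Icc a b ×ˢ univ] (s, x)) :=
      tendsto_nhdsWithin_iff.2 ⟨(continuous_id.prodMk continuous_const).continuousWithinAt,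
        eventually_mem_nhdsWithin.mono fun r l => ⟨⟨m.1.trans l.1.le, l.2⟩, trivial⟩⟩
    have := left_nhdsWithin_Ioc_neBot m.2
    have mm : (s, x) ∈ Icc a b ×ˢ (univ : Set V) := ⟨Ico_subset_Icc_self m, trivial⟩
    obtain ⟨r, r1, r2, r3⟩ := ((((hf _ mm).tendsto.comp t).eventually (lt_mem_nhds hx.1)).and
      ((((hd _ mm).tendsto.comp t).eventually (lt_mem_nhds hx.2)).and
        eventually_mem_nhdsWithin)).exists
    exact h.mono _ _ (by linarith [r3.1]) (k r r3 ⟨r1.le, r2.le⟩)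
  · have hZ : IsClosed (((Icc a b ×ˢ univ ∩ f ⁻¹' Ici 0) ∩ (Icc a b ×ˢ univ ∩ d ⁻¹' Ici 0)) ∩
        Prod.snd ⁻¹' Uᶜ) := ((hf.preimage_isClosed_of_isClosed c0 isClosed_Ici).inter
      (hd.preimage_isClosed_of_isClosed c0 isClosed_Ici)).inter
        (h.op.isClosed_compl.preimage continuous_snd)
    have k0 := k s ⟨le_rfl, m.2⟩
    have e := (cl_proj hK hZ).isOpen_compl.mem_nhds (x := s) fun ⟨x, _, ⟨x1, x2⟩, x3⟩ =>
      x3 (h.sub _ (by linarith [m.1]) (k0 ⟨x1.2, x2.2⟩))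
    obtain ⟨u, hu, l⟩ := (mem_nhdsLT_iff_exists_mem_Ico_Ioo_subset m.1).1
      (mem_nhdsWithin_of_mem_nhds e)
    have wU : ∀ r ∈ Ioo u s, Ws f d r ⊆ U := fun r j x hx => by
      have mr : r ∈ Icc a b := ⟨hu.1.trans j.1.le, j.2.le.trans m.2⟩
      by_contra x3
      exact l j ⟨x, hW r mr hx, ⟨⟨⟨mr, trivial⟩, hx.1⟩, ⟨mr, trivial⟩, hx.2⟩, x3⟩
    filter_upwards [Ioo_mem_nhdsLT hu.2] with r j
    have mr : r ∈ Icc a b := ⟨hu.1.trans j.1.le, j.2.le.trans m.2⟩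
    have ss : Icc r s ⊆ Icc a b := Icc_subset_Icc mr.1 m.2
    refine (hc r mr).trans ((h.clc _).closure_subset_iff.2 fun x hx => ?_)
    have xw : x ∈ Ws f d r := ⟨hx.1.le, hx.2.le⟩
    obtain ⟨y, y1, y2⟩ := via h hK (hf.mono (prod_mono ss subset_rfl))
      (hd.mono (prod_mono ss subset_rfl)) (fun q i => hW q (ss i)) (fun q i =>
        bar q ⟨mr.1.trans i.1, i.2.trans_le m.2⟩ (wU q ⟨j.1.trans_le i.1, i.2⟩)) j.2.le
      (h0 x (hW r mr xw) (wU r j xw)) hx.1 hx.2.le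
    exact (by ring : s - r + (τ - s) = τ - r) ▸ h.rc _ _ _ _ y2 (k0 y1)

end Vale.Agent.P366IV
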