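import Vale.Agent.P366IV.Defs2
import Vale.Agent.P366IV.Prp
import Mathlib.MeasureTheory.Integral.IntervalIntegral.FundThmCalculus

/-!
# P366IV: barriers which are polynomials, the derivative from the left, comparison
-/

open Set Filter Topology Metric
open scoped RealInnerProductSpace
open Vale.Agent.P366.Stmt (E)

noncomputable section

namespace Vale.Agent.P366IV

variable {n : ℕ} {c ξ ξ' : ℝ → E n} {Q Q' : ℝ → Op n} {s a b τ : ℝ} {ρ : ℝ → ℝ}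
  {R : E n → E n → ℝ → Prop} {Rc : ℝ → Set (E n)} {U K : Set (E n)}

theorem abs_q (A : Op n) (y z : E n) : |⟪A y, z⟫| ≤ ‖A‖ * ‖y‖ * ‖z‖ :=
  (abs_real_inner_le_norm _ _).trans (mul_le_mul_of_nonneg_right (A.le_opNorm y) (norm_nonneg _))

theorem small {m : ℝ → ℝ} {l : Filter ℝ} (h : Tendsto m l (𝓝 0)) (L : ℝ) {δ : ℝ} (hδ : 0 < δ) :
    ∀ᶠ r in l, m r * L ≤ δ :=
  ((h.mul_const L).eventually (gt_mem_nhds (by rwa [zero_mul]))).mono fun _ k => k.le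

theorem bar1 {x' y v : E n} {A' : Op n} {h C κ : ℝ} (hξ : HasDerivWithinAt ξ x' (Ioi s) s)
    (hQ : HasDerivWithinAt Q A' (Ioi s) s) (sy : Sym (Q s))
    (hC : ∀ᶠ r in 𝓝[>] s, ‖c r - c s‖ ≤ C * (r - s))
    (hh : ∀ᶠ r in 𝓝[>] s, ⟪ξ s + Q s y, c r - c s⟫ ≤ h * (r - s))
    (hG : -κ < ⟪x', y⟫ + ⟪A' y, y⟫ / 2 + ⟪ξ s + Q s y, v⟫ - h) : ∀ᶠ r in 𝓝[>] s,
      Pq (ξ s) (Q s) y - κ * (r - s) ≤ Pq (ξ r) (Q r) (y + ((r - s) • v - (c r - c s))) := by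
  obtain ⟨δ, δ0, hδ⟩ : ∃ δ > (0 : ℝ), ⟪x', y⟫ + ⟪A' y, y⟫ / 2 + ⟪ξ s + Q s y, v⟫ - h + κ = 2 * δ :=
    ⟨(⟪x', y⟫ + ⟪A' y, y⟫ / 2 + ⟪ξ s + Q s y, v⟫ - h + κ) / 2, by linarith, by ring⟩
  have d : HasDerivWithinAt (fun r => Pq (ξ r) (Q r) y) (⟪x', y⟫ + ⟪A' y, y⟫ / 2) (Ioi s) s := by
    have d0 := hasDerivWithinAt_const s (Ioi s) y
    simpa [Pq] using (hξ.inner ℝ d0).fun_add (((hQ.clm_apply d0).inner ℝ d0).div_const 2)
  have t0 : Tendsto (fun r : ℝ => r - s) (𝓝[>] s) (𝓝 0) :=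
    tendsto_sub_nhds_zero_iff.2 (tendsto_id.mono_left nhdsWithin_le_nhds)
  have t1 : Tendsto (fun r => ‖ξ r - ξ s‖ + ‖Q r - Q s‖ * ‖y‖ + ‖Q r‖ * ((‖v‖ + C) * (r - s)))
      (𝓝[>] s) (𝓝 0) := by
    simpa using ((tendsto_iff_norm_sub_tendsto_zero.1 hξ.continuousWithinAt).add
      ((tendsto_iff_norm_sub_tendsto_zero.1 hQ.continuousWithinAt).mul_const ‖y‖)).add
      (hQ.continuousWithinAt.norm.tendsto.mul (t0.const_mul (‖v‖ + C)))
  filter_upwards [hC, hh, d.isLittleO.bound δ0, small t1 (‖v‖ + C) δ0, self_mem_nhdsWithin]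
    with r k1 k2 k3 k4 k5
  have r0 : 0 < r - s := sub_pos.2 k5
  obtain ⟨z, hz⟩ : ∃ z, z = (r - s) • v - (c r - c s) := ⟨_, rfl⟩
  have z1 : ‖z‖ ≤ (‖v‖ + C) * (r - s) := by
    have := norm_sub_le ((r - s) • v) (c r - c s)
    rw [norm_smul, Real.norm_of_nonneg r0.le, ← hz] at this
    linarith
  have z2 : ⟪ξ s + Q s y, z⟫ = (r - s) * ⟪ξ s + Q s y, v⟫ - ⟪ξ s + Q s y, c r - c s⟫ := by
    rw [hz, inner_sub_right, real_inner_smul_right]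
  have e : Pq (ξ r) (Q r) (y + z) = Pq (ξ r) (Q r) y + ⟪ξ s + Q s y, z⟫ + (⟪ξ r - ξ s, z⟫ +
      (⟪(Q r - Q s) y, z⟫ + ⟪(Q r - Q s) z, y⟫ + ⟪Q r z, z⟫) / 2) := by
    have := (sy z y).trans (real_inner_comm _ _)
    simp only [Pq, map_add, inner_add_left, inner_add_right, inner_sub_left, sub_apply]
    linarith
  have b1 := (abs_le.1 (abs_real_inner_le_norm (ξ r - ξ s) z)).1
  have b2 := (abs_le.1 (abs_q (Q r - Q s) y z)).1
  have b3 := (abs_le.1 (abs_q (Q r - Q s) z y)).1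
  have b4 := (abs_le.1 (abs_q (Q r) z z)).1
  have b5 : ‖Q r‖ * ‖z‖ * ‖z‖ ≤ ‖Q r‖ * ((‖v‖ + C) * (r - s)) * ‖z‖ := by gcongr
  have b6 : 0 ≤ ‖Q r‖ * ‖z‖ * ‖z‖ := by positivity
  have b7 := mul_le_mul_of_nonneg_left z1 (show 0 ≤ ‖ξ r - ξ s‖ + ‖Q r - Q s‖ * ‖y‖ +
    ‖Q r‖ * ((‖v‖ + C) * (r - s)) from add_nonneg (by positivity)
      (mul_nonneg (norm_nonneg _) ((norm_nonneg _).trans z1)))
  have b8 := mul_le_mul_of_nonneg_right k4 r0.le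
  rw [Real.norm_of_nonneg r0.le, Real.norm_eq_abs, smul_eq_mul] at k3
  have b9 := (abs_le.1 k3).1
  have b10 := congrArg (· * (r - s)) hδ
  rw [← hz, e, z2]
  linarith

theorem ne_of_wb {p y : E n} {A : Op n} {r : ℝ} (h0 : p ≠ 0) (h : 3 * (‖A‖ * r) ≤ ‖p‖)
    (hy : ‖y‖ ≤ r) : ‖A y‖ ≤ ‖p‖ / 3 ∧ p + A y ≠ 0 := by
  have k : ‖A y‖ ≤ ‖p‖ / 3 := by
    linarith [A.le_opNorm y, mul_le_mul_of_nonneg_left hy (norm_nonneg A)]
  refine ⟨k, fun e => ?_⟩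
  rw [← neg_eq_iff_add_eq_zero.2 e, norm_neg] at k
  linarith [norm_pos_iff.2 h0]

/-- propagation of the positive side of a family of polynomials -/
theorem prop2 (T : TAY) (h : Rch R Rc U τ) (hK : IsCompact K) {W : E n → E n → E n} (ha : 0 ≤ a)
    (cc : ContinuousOn c (Icc a b)) (cρ : ContinuousOn ρ (Icc a b))
    (dξ : ∀ s ∈ Icc a b, HasDerivWithinAt ξ (ξ' s) (Icc a b) s)
    (dQ : ∀ s ∈ Icc a b, HasDerivWithinAt Q (Q' s) (Icc a b) s)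
    (hs : ∀ s ∈ Icc a b, Sym (Q s) ∧ 0 < ρ s ∧ ξ s ≠ 0 ∧ 3 * (‖Q s‖ * ρ s) ≤ ‖ξ s‖ ∧
      closedBall (c s) (ρ s) ⊆ K) (h0 : ∀ x ∈ K, x ∈ U → R x x 0)
    (apx : ∀ x ∈ K, x ∈ U → ∀ p ≠ 0, ∀ κ > (0 : ℝ), ∃ v, ‖v - W x p‖ ≤ κ ∧
      ∀ᶠ t in 𝓝[>] (0 : ℝ), R x (x + t • v) t)
    (lip : ∀ s ∈ Ico a b, ∃ C, ∀ᶠ r in 𝓝[>] s, ‖c r - c s‖ ≤ C * (r - s))
    (hG : ∀ s ∈ Ico a b, (∀ y ∈ Wb (ξ s) (Q s) (ρ s), c s + y ∈ U) →
      ∀ y ∈ Wb (ξ s) (Q s) (ρ s), (∃ h, (∀ κ > (0 : ℝ), ∀ᶠ r in 𝓝[>] s,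
        ⟪ξ s + Q s y, c r - c s⟫ ≤ (h + κ) * (r - s)) ∧
        h ≤ ⟪ξ' s, y⟫ + ⟪Q' s y, y⟫ / 2 + ⟪ξ s + Q s y, W (c s + y) (ξ s + Q s y)⟫) ∧
      ∃ κ > (0 : ℝ), ∀ v, ‖v - W (c s + y) (ξ s + Q s y)‖ ≤ κ →
        ∀ᶠ r in 𝓝[>] s, ‖(r - s) • v - (c r - c s)‖ ≤ ρ r - ρ s)
    (hb : ∀ y ∈ Wb (ξ b) (Q b) (ρ b), c b + y ∈ Rc (τ - b)) :
    ∀ s ∈ Icc a b, ∀ y ∈ Wb (ξ s) (Q s) (ρ s), c s + y ∈ Rc (τ - s) := by
  let f : ℝ × E n → ℝ := fun q => Pq (ξ q.1) (Q q.1) (q.2 - c q.1)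
  let d : ℝ × E n → ℝ := fun q => ρ q.1 - ‖q.2 - c q.1‖
  have mm : ∀ s x, x ∈ Ws f d s ↔ x - c s ∈ Wb (ξ s) (Q s) (ρ s) := fun s x =>
    and_congr_right' sub_nonneg
  have pr : ∀ {G : Type} [TopologicalSpace G] {u : ℝ → G}, ContinuousOn u (Icc a b) →
      ContinuousOn (fun q : ℝ × E n => u q.1) (Icc a b ×ˢ univ) := fun hu =>
    hu.comp continuousOn_fst fun _ m => m.1
  have c1 := continuousOn_snd.sub (pr cc)
  have := prp (f := f) (d := d) h hK (((pr fun s m => (dξ s m).continuousWithinAt).inner c1).add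
    ((((pr fun s m => (dQ s m).continuousWithinAt).clm_apply c1).inner c1).div_const 2))
    ((pr cρ).sub c1.norm) (fun s m x hx => (hs s m).2.2.2.2
      (mem_closedBall_iff_norm.2 ((mm s x).1 hx).2)) (fun s m x hx => ?_) h0
    (fun s m hU x hx κ κ0 => ?_) ha fun x hx => by simpa using hb _ ((mm b x).1 hx)
  · exact fun s m y hy => this s m ((mm s _).2 (by rwa [add_sub_cancel_left]))
  · obtain ⟨-, k1, k2, k3, -⟩ := hs s m
    have := map_mem_closure (f := fun y => c s + y) (t := {x | 0 < f (s, x) ∧ 0 < d (s, x)})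
      (by fun_prop) ((T n _ _ _ k1 k2 k3).1 ((mm s x).1 hx)) fun y hy => by
        simpa [f, d] using hy
    rwa [add_sub_cancel] at this
  · have m' := Ico_subset_Icc_self m
    obtain ⟨k0, k1, k2, k3, k4⟩ := hs s m'
    have hy := (mm s x).1 hx
    obtain ⟨⟨η, η1, η2⟩, κ', κ1, κ2⟩ := hG s m (fun y hy => hU ((mm s _).2
      (by rwa [add_sub_cancel_left]))) _ hy
    obtain ⟨C, hC⟩ := lip s m
    rw [add_sub_cancel] at η2 κ2
    obtain ⟨p, hp⟩ : ∃ p, p = ξ s + Q s (x - c s) := ⟨_, rfl⟩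
    have p0 : 0 < κ / 4 / (‖p‖ + 1) := by positivity
    obtain ⟨v, v1, v2⟩ := apx x (k4 (mem_closedBall_iff_norm.2 hy.2)) (hU hx) p
      (hp ▸ (ne_of_wb k2 k3 hy.2).2) _ (lt_min κ1 p0)
    have v3 : ‖p‖ * ‖v - W x p‖ ≤ κ / 4 := by
      have := (le_div_iff₀ (by positivity)).1 (v1.trans (min_le_right _ _))
      nlinarith [norm_nonneg (v - W x p)]
    have v4 := (abs_le.1 (abs_real_inner_le_norm p (v - W x p))).1
    rw [inner_sub_right] at v4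
    have mn := Icc_mem_nhdsGT_of_mem m
    have e1 := bar1 (v := v) (κ := κ) ((dξ s m').mono_of_mem_nhdsWithin mn)
      ((dQ s m').mono_of_mem_nhdsWithin mn) k0 hC (η1 _ (half_pos κ0)) (by
        rw [← hp] at η2 ⊢
        linarith)
    have tt : Tendsto (fun t : ℝ => s + t) (𝓝[>] 0) (𝓝[>] s) :=
      tendsto_nhdsWithin_iff.2 ⟨(Continuous.tendsto' (by fun_prop) _ _ (add_zero s)).mono_left
        nhdsWithin_le_nhds, eventually_mem_nhdsWithin.mono fun t l => lt_add_of_pos_right s l⟩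
    refine Eventually.frequently ?_
    filter_upwards [v2, tt.eventually e1, tt.eventually (κ2 v (hp ▸ v1.trans (min_le_left _ _)))]
      with t j1 j2 j3
    rw [add_sub_cancel_left] at j2 j3
    have e : x + t • v - c (s + t) = x - c s + (t • v - (c (s + t) - c s)) := by abel
    refine ⟨_, j1, by simpa only [f, e] using j2, ?_⟩
    have := norm_add_le (x - c s) (t • v - (c (s + t) - c s))
    simp only [d, e]
    linarith [hy.2]

theorem grad_lim {ι : Type} {l : Filter ι} {w : ι → E n} {H : E n → ℝ} {p V : E n}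
    (hH : DifferentiableAt ℝ H p) (hV : ∀ η, fderiv ℝ H p η = ⟪V, η⟫)
    (up : ∀ᶠ p' in 𝓝 p, ∀ κ > (0 : ℝ), ∀ᶠ i in l, ⟪p', w i⟫ ≤ H p' + κ)
    (lo : ∀ κ > (0 : ℝ), ∀ᶠ i in l, H p - κ ≤ ⟪p, w i⟫) : Tendsto w l (𝓝 V) := by
  have key : ∀ η, ∀ κ > (0 : ℝ), ∀ᶠ i in l, ⟪η, w i⟫ ≤ ⟪η, V⟫ + κ := fun η κ κ0 => by
    have d := (hH.hasFDerivAt.hasLineDerivAt η).isLittleO.bound (half_pos κ0)
    have t : Tendsto (fun t : ℝ => p + t • η) (𝓝 0) (𝓝 p) :=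
      Continuous.tendsto' (by fun_prop) _ _ (by simp)
    obtain ⟨t, ⟨t1, t2⟩, t3⟩ := (((d.and (t.eventually up)).filter_mono nhdsWithin_le_nhds).and
      (self_mem_nhdsWithin (a := 0) (s := Ioi 0))).exists
    have t0 : 0 < t := t3
    have κ1 : 0 < t * κ / 4 := by positivity
    filter_upwards [t2 _ κ1, lo _ κ1] with i i1 i2
    rw [hV, real_inner_comm, zero_smul, add_zero, sub_zero, Real.norm_of_nonneg t0.le,
      Real.norm_eq_abs, smul_eq_mul] at t1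
    rw [inner_add_left, real_inner_smul_left] at i1
    refine le_of_mul_le_mul_left ?_ t0
    linarith [(abs_le.1 t1).2]
  refine (PiLp.continuous_toLp 2 _).continuousAt.tendsto.comp
    (tendsto_pi_nhds.2 fun k => Metric.tendsto_nhds.2 fun κ κ0 => ?_ :
      Tendsto (fun i => (w i).ofLp) l (𝓝 V.ofLp))
  filter_upwards [key (EuclideanSpace.single k 1) _ (half_pos κ0),
    key (-EuclideanSpace.single k 1) _ (half_pos κ0)] with i i1 i2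
  simp only [inner_neg_left, EuclideanSpace.inner_single_left, conj_trivial, one_mul] at i1 i2
  rw [Real.dist_eq, abs_lt]
  constructor <;> linarith

theorem left0 (h : Rch R Rc U τ) {p V : E n} {A : Op n} {r0 C κ : ℝ} (hr : 0 < r0) (κ0 : 0 < κ)
    (lip : ∀ᶠ r in 𝓝[<] s, ‖c s - c r‖ ≤ C * (s - r))
    (good : ∀ y ∈ Wb p A r0, c s + y ∈ Rc (τ - s))
    (cmin : ∀ᶠ r in 𝓝[<] s, ∀ t < τ - r, c r ∉ Rc t)
    (apx : ∀ κ > (0 : ℝ), ∃ v, ‖v - V‖ ≤ κ ∧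
      ∀ᶠ q in 𝓝 (c s) ×ˢ 𝓝[>] (0 : ℝ), R q.1 (q.1 + q.2 • v) q.2) :
    ∀ᶠ r in 𝓝[<] s, (⟪p, V⟫ - κ) * (s - r) ≤ ⟪p, c s - c r⟫ := by
  have t0 : Tendsto (fun r : ℝ => s - r) (𝓝[<] s) (𝓝 0) :=
    (Continuous.tendsto' (by fun_prop) _ _ (sub_self s)).mono_left nhdsWithin_le_nhds
  obtain ⟨v, v1, v2⟩ := apx (κ / 4 / (‖p‖ + 1)) (by positivity)
  have v3 : ‖p‖ * ‖v - V‖ ≤ κ / 4 := by
    have := (le_div_iff₀ (by positivity)).1 v1
    nlinarith [norm_nonneg (v - V)]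
  have v4 := (abs_le.1 (abs_real_inner_le_norm p (v - V))).1
  rw [inner_sub_right] at v4
  obtain ⟨δ, δ1, δ2⟩ : ∃ δ : ℝ, δ * ⟪p, v⟫ ≤ κ / 4 ∧ δ ∈ Ioo 0 1 :=
    (((small tendsto_id ⟪p, v⟫ (show 0 < κ / 4 by positivity)).filter_mono
      nhdsWithin_le_nhds).and (Ioo_mem_nhdsGT one_pos)).exists
  have δ3 : 0 < 1 - δ := sub_pos.2 δ2.2
  have tc : Tendsto c (𝓝[<] s) (𝓝 (c s)) := tendsto_iff_norm_sub_tendsto_zero.2
    (squeeze_zero' (.of_forall fun _ => norm_nonneg _)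
      (lip.mono fun r k => (norm_sub_rev _ _).trans_le k) (by simpa using t0.const_mul C))
  have tt : Tendsto (fun r => (1 - δ) * (s - r)) (𝓝[<] s) (𝓝[>] 0) :=
    tendsto_nhdsWithin_iff.2 ⟨by simpa using t0.const_mul (1 - δ),
      eventually_mem_nhdsWithin.mono fun r l => mul_pos δ3 (sub_pos.2 l)⟩
  have v5 : ∀ᶠ r in 𝓝[<] s, R (c r) (c r + ((1 - δ) * (s - r)) • v) ((1 - δ) * (s - r)) :=
    (tc.prodMk tt).eventually v2
  filter_upwards [v5, lip, cmin, small t0 (‖v‖ + C) hr,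
    small t0 (‖A‖ * (‖v‖ + C) ^ 2) κ0, self_mem_nhdsWithin] with r j1 j2 j3 j4 j5 j6
  have r1 : 0 < s - r := sub_pos.2 j6
  obtain ⟨y, hy⟩ : ∃ y, y = ((1 - δ) * (s - r)) • v - (c s - c r) := ⟨_, rfl⟩
  have y1 : ‖y‖ ≤ (s - r) * (‖v‖ + C) := by
    have := norm_sub_le (((1 - δ) * (s - r)) • v) (c s - c r)
    rw [norm_smul, Real.norm_of_nonneg (mul_pos δ3 r1).le, ← hy] at this
    linarith [mul_nonneg (mul_pos δ2.1 r1).le (norm_nonneg v)]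
  have y0 : c s + y = c r + ((1 - δ) * (s - r)) • v := by
    rw [hy]
    abel
  have y2 : Pq p A y < 0 := not_le.1 fun k => j3 _ (by linarith [mul_pos δ2.1 r1])
    (h.rc _ _ ((1 - δ) * (s - r)) (τ - s) j1 (y0 ▸ good y ⟨k, y1.trans j4⟩))
  have y3 := (abs_le.1 (abs_q A y y)).1
  have y4 : ‖A‖ * ‖y‖ * ‖y‖ ≤ ‖A‖ * ((s - r) * (‖v‖ + C)) * ((s - r) * (‖v‖ + C)) := by
    have := (norm_nonneg _).trans y1
    gcongr
  have y5 : ⟪p, y⟫ = (1 - δ) * (s - r) * ⟪p, v⟫ - ⟪p, c s - c r⟫ := by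
    rw [hy, inner_sub_right, real_inner_smul_right]
  have y6 := mul_le_mul_of_nonneg_right j5 r1.le
  have y7 := mul_le_mul_of_nonneg_right (show ⟪p, V⟫ - κ / 2 ≤ (1 - δ) * ⟪p, v⟫ by linarith) r1.le
  unfold Pq at y2
  linarith

/-- **LEFT**: the derivative of a minimizer from the left -/
theorem left {H : E n → ℝ} {p V : E n} (hH : DifferentiableAt ℝ H p)
    (hV : ∀ η, fderiv ℝ H p η = ⟪V, η⟫)
    (adm : ∀ᶠ p' in 𝓝 p, ∀ κ > (0 : ℝ), ∀ᶠ r in 𝓝[<] s, ⟪p', c s - c r⟫ ≤ (H p' + κ) * (s - r))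
    (lo : ∀ κ > (0 : ℝ), ∀ᶠ r in 𝓝[<] s, (H p - κ) * (s - r) ≤ ⟪p, c s - c r⟫) :
    HasDerivWithinAt c V (Iic s) s := by
  have sl : ∀ p' r, r < s → ⟪p', slope c s r⟫ * (s - r) = ⟪p', c s - c r⟫ := fun p' r k => by
    rw [slope_comm, slope_def_module, real_inner_smul_right, mul_right_comm,
      inv_mul_cancel₀ (sub_pos.2 k).ne', one_mul]
  refine ((hasDerivWithinAt_iff_tendsto_slope' self_notMem_Iio).2 (grad_lim hH hV
    (adm.mono fun p' k κ κ0 => ?_) fun κ κ0 => ?_)).Iic_of_Iio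
  · filter_upwards [k κ κ0, self_mem_nhdsWithin] with r j1 j2
    exact le_of_mul_le_mul_right ((sl p' r j2).trans_le j1) (sub_pos.2 j2)
  · filter_upwards [lo κ κ0, self_mem_nhdsWithin] with r j1 j2
    exact le_of_mul_le_mul_right (j1.trans_eq (sl p r j2).symm) (sub_pos.2 j2)

theorem lc1 {V : ℝ → E n} (cc : ContinuousOn c (Icc a b)) (cV : ContinuousOn V (Icc a b))
    (d : ∀ s ∈ Ioc a b, HasDerivWithinAt c (V s) (Iic s) s) :
    ∀ s ∈ Icc a b, HasDerivWithinAt c (V s) (Icc a b) s := by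
  intro s hs
  have ab := hs.1.trans hs.2
  have c1 : Continuous fun r => V (projIcc a b ab r) :=
    (continuousOn_iff_continuous_domRestrict.1 cV).comp continuous_projIcc
  have d1 : ∀ r ∈ Icc a b, HasDerivAt (fun u => ∫ x in a..u, V (projIcc a b ab x)) (V r) r :=
    fun r m => by simpa [projIcc_of_mem ab m] using (c1.integral_hasStrictDerivAt a r).hasDerivAt
  let k := fun r => c r - ∫ x in a..r, V (projIcc a b ab x)
  have mp : MapsTo (fun r : ℝ => -r) (Icc (-b) (-a)) (Icc a b) := fun r m =>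
    ⟨le_neg.1 m.2, neg_le.1 m.1⟩
  have e := constant_of_has_deriv_right_zero (f := fun r => k (-r)) (a := -b) (b := -a)
    ((cc.sub fun r m => (d1 r m).continuousAt.continuousWithinAt).comp continuous_neg.continuousOn
      mp) fun r m => by
      have m' : -r ∈ Ioc a b := ⟨lt_neg.1 m.2, neg_le.1 m.1⟩
      simpa [k, Function.comp_def] using ((d _ m').sub (d1 _
        (Ioc_subset_Icc_self m')).hasDerivWithinAt).scomp r (hasDerivAt_neg r).hasDerivWithinAt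
          (s := Ici r) fun u l => mem_Iic.2 (neg_le_neg l)
  have e' : ∀ r ∈ Icc a b, c r = k b + ∫ x in a..r, V (projIcc a b ab x) := fun r m => by
    have := e (-r) ⟨neg_le_neg m.2, neg_le_neg m.1⟩
    simp only [neg_neg] at this
    exact sub_eq_iff_eq_add.1 this
  exact ((d1 s hs).const_add (k b)).hasDerivWithinAt.congr_of_mem e' hs

/-- comparison to the left -/
theorem gron {θ : ℝ → ℝ} {L δ : ℝ} (hδ : δ < θ b * Real.exp ((L + 1) * (a - b))) (δ0 : 0 ≤ δ)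
    (L0 : 0 ≤ L) (hab : a ≤ b) (d : ∀ s ∈ Icc a b, ∃ θ' β, HasDerivWithinAt θ θ' (Icc a b) s ∧
      β ≤ L ∧ θ' ≤ β * θ s + δ) : θ b * Real.exp ((L + 1) * (a - b)) ≤ θ a := by
  choose! θ' β d1 d2 d3 using d
  have mp : MapsTo (fun r : ℝ => -r) (Icc (-b) (-a)) (Icc a b) := fun r m =>
    ⟨le_neg.1 m.2, neg_le.1 m.1⟩
  have b0 : 0 < θ b := (mul_pos_iff_of_pos_right (Real.exp_pos _)).1 (δ0.trans_lt hδ)
  have := image_le_of_deriv_right_lt_deriv_boundary (f := fun r => -θ (-r))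
    (f' := fun r => θ' (-r)) (a := -b) (b := -a)
    (B := fun r => -(θ b * Real.exp ((L + 1) * (-r - b))))
    (B' := fun r => θ b * Real.exp ((L + 1) * (-r - b)) * (L + 1))
    (ContinuousOn.comp (g := θ) (fun s m => (d1 s m).continuousWithinAt)
      continuous_neg.continuousOn mp).neg (fun r m => ?_) (by simp) (fun r => ?_)
    (fun r m e => ?_) (x := -a) ⟨neg_le_neg hab, le_rfl⟩
  · simpa using this
  · exact ((((d1 _ (mp (Ico_subset_Icc_self m))).comp r (hasDerivAt_neg r).hasDerivWithinAt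
      mp).neg).mono_of_mem_nhdsWithin (Icc_mem_nhdsGE_of_mem m)).congr_deriv (by ring)
  · exact (((((hasDerivAt_neg r).sub_const b).const_mul
      (L + 1)).exp).const_mul (θ b)).neg.congr_deriv (by ring)
  · have m' := mp (Ico_subset_Icc_self m)
    have e' := neg_injective e
    have k : θ b * Real.exp ((L + 1) * (a - b)) ≤ θ b * Real.exp ((L + 1) * (-r - b)) := by
      gcongr
      exact m'.1
    have := mul_le_mul_of_nonneg_right (d2 _ m') (show 0 ≤ θ (-r) by linarith)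
    have := d3 _ m'
    simp only [← e'] at *
    linarith

end Vale.Agent.P366IV
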