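import Vale.Agent.P366P.Ric
import Vale.Agent.P354YQ.Jet

/-!
# P366IV: invisibility of trapped sets. Definitions in a chart, and the pieces RAY and JET.
-/

open Set Filter Topology
open scoped ContDiff RealInnerProductSpace
open Vale.Agent.P366.Stmt Vale.Agent.P366Z
open Vale.Agent.P366Y.C (rc)
open Vale.Agent.P366P (cd)
open Vale.Agent.P354YQ (JB)

noncomputable section

namespace Vale.Agent.P366IV

abbrev Op (n : ℕ) : Type := E n →L[ℝ] E n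

variable {n : ℕ} (g K : Field n) (N : E n → ℝ) (X : Fin n → E n → ℝ)

/-- the length of the covector `p` at `x`, and its unit normal -/
def wn (x p : E n) : ℝ := √(∑ i, ∑ j, up g i j x * p i * p j)
def nu (x p : E n) (i : Fin n) : ℝ := (∑ j, up g i j x * p j) / wn g x p

/-- the Hamiltonian, and the velocity of the null generators -/
def Hm (q : E n × E n) : ℝ := N q.1 * wn g q.1 q.2 - ∑ k, X k q.1 * q.2 k
def Vv (x p : E n) : E n := WithLp.toLp 2 fun k => N x * nu g x p k - X k x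

/-- the projection to the front, the null second fundamental form times `wn`, the expansion -/
def Pr (x p : E n) (i j : Fin n) : ℝ := up g i j x - nu g x p i * nu g x p j
def Sg (x p : E n) (Q : Op n) (i j : Fin n) : ℝ :=
  Q (EuclideanSpace.single j 1) i - ∑ k, chr g k i j x * p k + wn g x p * K x i j
def Th (x p : E n) (Q : Op n) : ℝ := (∑ i, ∑ j, Pr g x p i j * Sg g K x p Q i j) / wn g x p

/-- the matter term of the equation for the Hessian of `N` -/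
def mt : Field n := fun x i j => hess g N x i j -
  N x * (rc g x i j + tr g K x * K x i j - 2 * ∑ k, ∑ l, K x i k * up g k l x * K x l j) +
  ∑ k, (X k x * pd k (fun y => K y i j) x + K x k j * pd i (X k) x + K x i k * pd j (X k) x)

/-- Killing initial data with the null energy condition at `x` -/
structure Kid (x : E n) : Prop where
  sN : ∀ᶠ y in 𝓝 x, ContDiffAt ℝ ∞ N y
  sX : ∀ i, ∀ᶠ y in 𝓝 x, ContDiffAt ℝ ∞ (X i) y
  kx : ∀ᶠ y in 𝓝 x, ∀ i j,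
    ∑ k, (g y j k * cd g X k i y + g y i k * cd g X k j y) = -2 * N y * K y i j
  nec : ∀ ν : Fin n → ℝ, ∑ i, ∑ j, g x i j * ν i * ν j = 1 →
    0 ≤ 2 * N x * (mu g K x + ∑ j, mom g K j x * ν j) +
      (tr g (mt g K N X) x - ∑ i, ∑ j, mt g K N X x i j * ν i * ν j)

def Sym (Q : Op n) : Prop := ∀ v v', ⟪Q v, v'⟫ = ⟪v, Q v'⟫

/-- the equations for the jets along `c` -/
structure Jt (ε : ℝ) (I : Set ℝ) (c ξ : ℝ → E n) (Q : ℝ → Op n) (s : ℝ) : Prop where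
  sym : Sym (Q s)
  dξ : ∃ ξ', HasDerivWithinAt ξ ξ' I s ∧
    ∀ v, ⟪ξ', v⟫ = -fderiv ℝ (Hm g N X) (c s, ξ s) (v, 0)
  dQ : ∃ Q' : Op n, HasDerivWithinAt Q Q' I s ∧ ∀ v v', ⟪Q' v, v'⟫ = ε * ⟪v, v'⟫ +
    N (c s) / wn g (c s) (ξ s) * (∑ k, ∑ l, (∑ i, v i * Sg g K (c s) (ξ s) (Q s) i k) *
      Pr g (c s) (ξ s) k l * ∑ j, v' j * Sg g K (c s) (ξ s) (Q s) j l) -
    fderiv ℝ (fderiv ℝ (Hm g N X)) (c s, ξ s) (v, Q s v) (v', Q s v')

/-- the coefficient `ν (N) + N K (ν, ν)` -/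
def bt (x p : E n) : ℝ :=
  ∑ i, nu g x p i * pd i N x + N x * ∑ i, ∑ j, K x i j * nu g x p i * nu g x p j

/-- **RAY**: the inequality of Raychaudhuri for jets along a generator -/
def RAY : Prop := ∀ (n : ℕ) (g K : Field n) (N : E n → ℝ) (X : Fin n → E n → ℝ) (ε s : ℝ)
  (I : Set ℝ) (c ξ : ℝ → E n) (Q : ℝ → Op n), Met g → (∀ i j, Smooth fun x => K x i j) →
  (∀ x i j, K x i j = K x j i) → Kid g K N X (c s) → ξ s ≠ 0 → 0 ≤ ε →
  HasDerivWithinAt c (Vv g N X (c s) (ξ s)) I s → Jt g K N X ε I c ξ Q s →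
  ∃ θ', HasDerivWithinAt (fun r => Th g K (c r) (ξ r) (Q r)) θ' I s ∧
    θ' ≤ bt g K N (c s) (ξ s) * Th g K (c s) (ξ s) (Q s) +
      ε * (∑ i, up g i i (c s)) / wn g (c s) (ξ s)

/-- **JET**: the jets exist along every continuous curve for a uniform time -/
def JET : Prop := ∀ (n : ℕ) (g K : Field n) (N : E n → ℝ) (X : Fin n → E n → ℝ) (B W : Set (E n))
  (C : ℝ), Met g → (∀ i j, Smooth fun x => K x i j) → (∀ x i j, K x i j = K x j i) → IsCompact B →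
  W ⊆ B → (∀ x ∈ W, JB 3 N x C ∧ ∀ i, JB 3 (X i) x C) →
  ∃ Δ > (0 : ℝ), ∀ (s₁ s₂ ε : ℝ) (c : ℝ → E n) (p : E n) (Q₂ : Op n), s₁ ≤ s₂ → s₂ ≤ s₁ + Δ →
    ε ∈ Icc (0 : ℝ) 1 → ContinuousOn c (Icc s₁ s₂) → MapsTo c (Icc s₁ s₂) W → p ≠ 0 → Sym Q₂ →
    ∃ (ξ : ℝ → E n) (Q : ℝ → Op n), ξ s₂ = p ∧ Q s₂ = Q₂ ∧ ∀ s ∈ Icc s₁ s₂,
      Jt g K N X ε (Icc s₁ s₂) c ξ Q s ∧ ‖ξ s - p‖ ≤ ‖p‖ / 2 ∧ ‖Q s‖ ≤ 2 * ‖Q₂‖ + ‖p‖ + 1

/-- **TH**: the expansion of a level set depends on the 2-jet only -/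
def TH : Prop := ∀ (n : ℕ) (g K : Field n) (f : E n → ℝ) (x p : E n) (Q : Op n), Met g →
  (∀ i, pd i f x = p i) → (∀ i j, pd i (pd j f) x = Q (EuclideanSpace.single j 1) i) → p ≠ 0 →
  thetaPlus g K f x = Th g K x p Q

end Vale.Agent.P366IV
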