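import Vale.Agent.P366IV.Defs

/-!
# P366IV: invisibility of trapped sets. The pieces CUR, TAY, HAM and CHT.
-/

open Set Filter Topology
open scoped ContDiff RealInnerProductSpace
open Vale.Agent.P366.Stmt Vale.Agent.P366Z
open Vale.Agent.P354YQ (JB JD SA)

noncomputable section

namespace Vale.Agent.P366IV

section Cur

variable {M : Type} [MetricSpace M] (C : Set M) (Φ : Set (M → ℝ)) (H : (M → ℝ) → M → ℝ)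

/-- admissible curves -/
structure Adm (c : ℝ → M) (a b : ℝ) : Prop where
  cont : ContinuousOn c (Icc a b)
  mem : MapsTo c (Icc a b) C
  le : ∀ φ ∈ Φ, ∀ s s' h : ℝ, a ≤ s → s ≤ s' → s' ≤ b → (∀ r ∈ Icc s s', H φ (c r) ≤ h) →
    φ (c s') - φ (c s) ≤ h * (s' - s)

/-- `y` is reached from `x` in the time `t` -/
def Rl (x y : M) (t : ℝ) : Prop := 0 ≤ t ∧ ∃ c, Adm C Φ H c 0 t ∧ c 0 = x ∧ c t = y

/-- the points from which `D` is reached in the time `t` -/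
def Rs (D : Set M) (t : ℝ) : Set M := {x | ∃ y ∈ D, Rl C Φ H x y t}

end Cur

/-- **CUR**: the relation is reflexive, transitive and closed; there are minimizers -/
def CUR : Prop := ∀ (M : Type) [MetricSpace M] (C : Set M) (Φ : Set (M → ℝ))
  (H : (M → ℝ) → M → ℝ), IsCompact C →
  (∀ φ ∈ Φ, Continuous φ ∧ ContinuousOn (H φ) C ∧ ∀ x ∈ C, 0 ≤ H φ x) →
  (∀ x ∈ C, ∀ ε > (0 : ℝ), ∃ φ ∈ Φ, φ x = 0 ∧ ∀ y ∈ C, ε ≤ dist y x → 1 ≤ φ y) →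
  (∀ x ∈ C, ∀ t, 0 ≤ t → Rl C Φ H x x t) ∧
  (∀ x y z s t, Rl C Φ H x y s → Rl C Φ H y z t → Rl C Φ H x z (s + t)) ∧
  IsClosed {q : M × M × ℝ | Rl C Φ H q.1 q.2.1 q.2.2} ∧
  ∀ D T : Set M, IsClosed D → IsClosed T → (∀ t, IsClosed (Rs C Φ H D t)) ∧
    ((∃ x ∈ T, ∃ t, x ∈ Rs C Φ H D t) → ∃ τ c, 0 ≤ τ ∧ Adm C Φ H c 0 τ ∧ c 0 ∈ T ∧ c τ ∈ D ∧
      (∀ t < τ, ∀ x ∈ Rs C Φ H D t, x ∉ T) ∧
      ∀ s ∈ Icc 0 τ, c s ∈ Rs C Φ H D (τ - s) ∧ ∀ t < τ - s, c s ∉ Rs C Φ H D t)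

variable {n : ℕ}

/-- the quadratic polynomial with the jet `(0, p, Q)` at the origin, and its positive side -/
def Pq (p : E n) (Q : Op n) (y : E n) : ℝ := ⟪p, y⟫ + ⟪Q y, y⟫ / 2
def Wb (p : E n) (Q : Op n) (ρ : ℝ) : Set (E n) := {y | 0 ≤ Pq p Q y ∧ ‖y‖ ≤ ρ}

/-- **TAY**: the formula of Taylor on the positive side -/
def TAY : Prop := ∀ (n : ℕ) (p : E n) (Q : Op n) (ρ : ℝ), 0 < ρ → p ≠ 0 → 3 * (‖Q‖ * ρ) ≤ ‖p‖ →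
  Wb p Q ρ ⊆ closure {y | 0 < Pq p Q y ∧ ‖y‖ < ρ} ∧
  ∀ (G : Type) [NormedAddCommGroup G] [NormedSpace ℝ G] (F : E n → G) (C : ℝ), ∀ y ∈ Wb p Q ρ,
    ((∀ z ∈ Wb p Q ρ, JD 1 F z C) → ‖F y - F 0‖ ≤ 2 * C * ‖y‖) ∧
    ((∀ z ∈ Wb p Q ρ, JD 2 F z C) → ‖F y - F 0 - fderiv ℝ F 0 y‖ ≤ 4 * C * ‖y‖ ^ 2) ∧
    ((∀ z ∈ Wb p Q ρ, JD 3 F z C) → ‖F y - F 0 - fderiv ℝ F 0 y -
      (1 / 2 : ℝ) • fderiv ℝ (fderiv ℝ F) 0 y y‖ ≤ 8 * C * ‖y‖ ^ 3)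

/-- **HAM**: the Hamiltonian; pointwise facts and bounds -/
def HAM : Prop := ∀ (n : ℕ) (g K : Field n) (N : E n → ℝ) (X : Fin n → E n → ℝ), Met g →
  (∀ i j, Smooth fun x => K x i j) →
  (∀ x p, p ≠ 0 → Hm g N X (x, p) = ⟪p, Vv g N X x p⟫ ∧
    ∑ i, ∑ j, g x i j * nu g x p i * nu g x p j = 1 ∧
    (∀ a : Fin n → ℝ, 0 ≤ ∑ k, ∑ l, a k * Pr g x p k l * a l) ∧
    (∀ Q, ContinuousAt (fun q : E n × E n × Op n => Th g K q.1 q.2.1 q.2.2) (x, p, Q)) ∧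
    (SA N x → (∀ i, SA (X i) x) → SA (Hm g N X) (x, p) ∧
      ContinuousAt (fun q : E n × E n => Vv g N X q.1 q.2) (x, p) ∧
      ∀ η, fderiv ℝ (Hm g N X) (x, p) (0, η) = ⟪Vv g N X x p, η⟫)) ∧
  (∀ x p v : E n, 0 ≤ N x → ∑ i, ∑ j, g x i j * (v i + X i x) * (v j + X j x) ≤ N x ^ 2 →
    ⟪p, v⟫ ≤ Hm g N X (x, p)) ∧
  ∀ (B : Set (E n)) (C a b : ℝ), IsCompact B → 0 < a → ∃ C', ∀ x ∈ B,
    (JB 3 N x C ∧ ∀ i, JB 3 (X i) x C) → ∀ p, a ≤ ‖p‖ → ‖p‖ ≤ b →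
      JB 3 (Hm g N X) (x, p) C' ∧ |bt g K N x p| ≤ C' ∧ (∑ i, up g i i x) / wn g x p ≤ C'

/-- **CHT**: a smooth support function can be replaced by a polynomial, and conversely -/
def CHT : Prop := ∀ (n : ℕ) (g K : Field n) (z : E n), Met g → (∀ i j, Smooth fun x => K x i j) →
  (∀ u : E n → ℝ, Smooth u → u z = 0 → (∃ i, pd i u z ≠ 0) → 0 < thetaPlus g K u z →
    ∃ p Q, p ≠ 0 ∧ Sym Q ∧ 0 < Th g K z p Q ∧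
      ∃ ρ > (0 : ℝ), ∀ y ∈ Wb p Q ρ, y ≠ 0 → 0 < u (z + y)) ∧
  ∀ p Q, p ≠ 0 → Sym Q → ∃ u : E n → ℝ, Smooth u ∧ (∀ y ∉ Metric.closedBall z 2, u y = 0) ∧
    (∀ y ∈ Metric.ball z 1, u y = Pq p Q (y - z)) ∧ (∃ i, pd i u z ≠ 0) ∧
      thetaPlus g K u z = Th g K z p Q

end Vale.Agent.P366IV
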