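import Vale.Agent.P366IV.Defs2
import Vale.Agent.P366F.Defs

/-!
# P366IV: invisibility of trapped sets. The pieces KID and FAR.
-/

open Vale.Agent.P366M (At px)
open Vale.Agent.P366F (All)

namespace Vale.Agent.P366IV

/-- **KID**: the equations on `U` in the form which is used by RAY -/
def KID : Prop := All fun _ M _ Z _ => Z.Ncc → ∀ e ∈ At M, ∀ y, e.symm y ∈ Z.U →
  Kid (Z.g e) (Z.K e) (Z.Nc e) (Z.Xc e) y

/-- **FAR**: large coordinate spheres are untrapped -/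
def FAR : Prop := All fun _ M _ Z _ => ∃ R, ∀ x : M, R ≤ ‖px x‖ →
  (∃ i, P366M.pd i (fun z : M => ‖px z‖ ^ 2) x ≠ 0) ∧
    0 < P366M.thetaPlus Z.D.g Z.D.K (fun z : M => ‖px z‖ ^ 2) x

end Vale.Agent.P366IV
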