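import Vale.Agent.P366IV.Step2
import Vale.Agent.P366IV.Defs3
import Vale.Agent.P366F.Ad
import Vale.Agent.P366M.Apx
import Vale.Agent.P366M.Int
import Vale.Agent.P366M.Max
import Vale.Agent.P366OC.Ham
import Vale.Agent.P366OC.Kid
import Vale.Agent.P366CU.Cur

/-!
# P366IV: causal curves on the manifold and the frame in a chart
-/

open Set Filter Topology Metric
open scoped RealInnerProductSpace ContDiff
open Vale.Agent.P366M Vale.Agent.P366F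
open Vale.Agent.P366 (Stmt.pd)
open Vale.Agent.P366.Stmt (E)
open Vale.Agent.P354YQ (JB JD SA)
open Vale.Agent.P366OC (ham)

noncomputable section

namespace Vale.Agent.P366IV

variable {n : ℕ} {M : Type} [Mfe n M] (Z : Dat n M) (ρ : ℝ)

/-- the Hamiltonian, the compact region, the relation and the visible sets -/
def HM (φ : M → ℝ) (x : M) : ℝ := Z.N x * gn Z.D.g φ x - ∑ i, pd i φ x * Z.X i x
def CC : Set M := {x | 0 ≤ Z.D.F x ∧ ‖px x‖ ≤ ρ + 1}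
abbrev RR : M → M → ℝ → Prop := Rl (CC Z ρ) {φ | Smooth φ} (HM Z)
abbrev RS : ℝ → Set M := Rs (CC Z ρ) {φ | Smooth φ} (HM Z) {x | ρ ≤ ‖px x‖}

variable {Z ρ} {e : Ch n M} {φ : M → ℝ} {x : M} {y v : E n}

theorem hm_loc (he : e ∈ At M) (hφ : Smooth φ) {p : E n} (hp : ∀ i, Stmt.pd i (loc e φ) y = p i) :
    HM Z φ (e.symm y) = Hm (Z.g e) (Z.Nc e) (Z.Xc e) (y, p) := by
  rw [HM, ← gn_rep he _ (hφ.diff _), ← dot_rep he (fun j => pd j φ)]
  simp only [← pd_rep he (hφ.diff _), hp, Hm, wn, P366Z.gn, P366Z.ip, mul_comm (p _)]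
  rfl

theorem hm_ge (hZ : Z.Ok) (he : e ∈ At M) (hφ : Smooth φ) (hy : y ∈ Z.Om e)
    (hv : ∑ i, ∑ j, Z.g e y i j * (v i + Z.Xc e i y) * (v j + Z.Xc e j y) ≤ Z.Nc e y ^ 2) :
    fderiv ℝ (loc e φ) y v ≤ HM Z φ (e.symm y) := by
  rw [hm_loc he hφ (p := WithLp.toLp 2 fun i => Stmt.pd i (loc e φ) y) fun _ => rfl,
    P366Z.fderiv_eq_sum ((hφ e he).differentiable (by simp) y)]
  refine le_trans (le_of_eq ?_) ((ham n _ _ _ _ (Z.D.met.rep he) (Z.D.smK e he)).2.1 y _ v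
    (hZ.nn _ hy) hv)
  simp [PiLp.inner_apply]

theorem sq_le (hZ : Z.Ok) (he : e ∈ At M) (hy : y ∈ Z.Om e) :
    ∑ i, ∑ j, Z.g e y i j * Z.Xc e i y * Z.Xc e j y ≤ Z.Nc e y ^ 2 :=
  sub_nonneg.1 ((hZ.le _ hy).trans_eq (lam_loc Z he y))

theorem cur' (hZ : Z.Ok) (ρ : ℝ) : (∀ x ∈ CC Z ρ, ∀ t, 0 ≤ t → RR Z ρ x x t) ∧
    (∀ x y z s t, RR Z ρ x y s → RR Z ρ y z t → RR Z ρ x z (s + t)) ∧
    IsClosed {q : M × M × ℝ | RR Z ρ q.1 q.2.1 q.2.2} ∧ (∀ t, IsClosed (RS Z ρ t)) ∧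
    ((∃ x ∈ Z.Uᶜ, ∃ t, x ∈ RS Z ρ t) → ∃ τ c, 0 ≤ τ ∧ Adm (CC Z ρ) {φ | Smooth φ} (HM Z) c 0 τ ∧
      c 0 ∈ Z.Uᶜ ∧ c τ ∈ {x : M | ρ ≤ ‖px x‖} ∧ (∀ t < τ, ∀ x ∈ RS Z ρ t, x ∉ Z.Uᶜ) ∧
      ∀ s ∈ Icc 0 τ, c s ∈ RS Z ρ (τ - s) ∧ ∀ t < τ - s, c s ∉ RS Z ρ t) := by
  have := P366CU.cur M (CC Z ρ) {φ | Smooth φ} (HM Z) ((isCompact_px M (ρ + 1)).inter_left
    (isClosed_le continuous_const Z.D.dom.1.cont)) (fun φ (hφ : Smooth φ) => ⟨hφ.cont, ?_,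
      fun x hx => ?_⟩) fun x _ ε ε0 => ?_
  · exact ⟨this.1, this.2.1, this.2.2.1, this.2.2.2 _ _ (isClosed_le continuous_const cont_npx)
      hZ.op.isClosed_compl⟩
  · refine ((hZ.cN.mul (Z.D.met.cont_gn hφ.one).continuousOn).sub
      (contOn_of fun x hx => ?_)).mono fun _ m => m.1
    have he := ch_mem x
    rw [show loc (ch x) (fun x => ∑ i, pd i φ x * Z.X i x) = _ from
      funext fun y => (dot_rep he (fun j => pd j φ) Z.X y).symm]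
    exact continuousOn_finsetSum _ (fun i _ => (hφ.cc_pd _ he i).continuous.continuousOn.mul
      (hZ.lipX _ he i).continuousOn) _ (by simpa using hx)
  · have hy : pt x ∈ Z.Om (ch x) := by simpa using hx.1
    simpa using hm_ge (v := 0) hZ (ch_mem x) hφ hy (by simpa using sq_le hZ (ch_mem x) hy)
  · obtain ⟨χ, h1, -, h2, -, h3⟩ := exists_cut isCompact_singleton isOpen_ball
      (singleton_subset_iff.2 (mem_ball_self ε0 : x ∈ _))
    refine ⟨fun y => 1 - χ y, CD.sub cd_const h1, by simp [(h3 x rfl).self_of_nhds],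
      fun y _ k => ?_⟩
    simp [image_eq_zero_of_notMem_tsupport fun l => not_lt.2 k (h2 l)]

theorem rs_of (hZ : Z.Ok) {x y : M} {s t : ℝ} (h : RR Z ρ x y s) (k : y ∈ RS Z ρ t) :
    x ∈ RS Z ρ (s + t) :=
  k.imp fun _ l => ⟨l.1, (cur' hZ ρ).2.1 _ _ _ _ _ h l.2⟩

theorem rs_zero (hZ : Z.Ok) (h : x ∈ CC Z ρ) (k : ρ ≤ ‖px x‖) : x ∈ RS Z ρ 0 :=
  ⟨x, k, (cur' hZ ρ).1 x h 0 le_rfl⟩

theorem tube {G : E n × E n → Prop} (h : ∀ᶠ w in 𝓝 (y, v), G w) :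
    ∀ᶠ q : E n × E n × ℝ in 𝓝 (y, v, 0), ∀ s ∈ Icc 0 q.2.2, G (q.1 + s • q.2.1, q.2.1) := by
  refine ((isCompact_Icc (a := (0 : ℝ)) (b := 1)).eventually_forall_of_forall_eventually
    (P := fun (q : E n × E n × ℝ) σ => G (q.1 + (σ * q.2.2) • q.2.1, q.2.1)) fun σ _ =>
      (Continuous.tendsto' (by fun_prop) _ _ (by simp)).eventually h).mono fun q k s m => ?_
  have := k (s / q.2.2) ⟨div_nonneg m.1 (m.1.trans m.2), div_le_one_of_le₀ m.2 (m.1.trans m.2)⟩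
  rwa [div_mul_cancel_of_imp fun l => le_antisymm (l ▸ m.2) m.1] at this

/-- timelike segments -/
theorem seg (hZ : Z.Ok) (he : e ∈ At M) (hy : y ∈ Z.Om e) (hr : ‖px (e.symm y)‖ < ρ + 1)
    (hv : ∑ i, ∑ j, Z.g e y i j * (v i + Z.Xc e i y) * (v j + Z.Xc e j y) < Z.Nc e y ^ 2) :
    ∀ᶠ q : E n × E n × ℝ in 𝓝 (y, v, 0), 0 ≤ q.2.2 →
      (∀ s ∈ Icc 0 q.2.2, q.1 + s • q.2.1 ∈ Z.Om e) →
        RR Z ρ (e.symm q.1) (e.symm (q.1 + q.2.2 • q.2.1)) q.2.2 := by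
  have pr : ∀ {u : E n → ℝ}, ContinuousOn u (Z.Om e) →
      ContinuousOn (fun w : E n × E n => u w.1) (Prod.fst ⁻¹' Z.Om e) := fun hu =>
    hu.comp continuousOn_fst fun _ m => m
  have c1 : ∀ i, ContinuousOn (fun w : E n × E n => w.2 i + Z.Xc e i w.1) (Prod.fst ⁻¹' Z.Om e) :=
    fun i => ContinuousOn.add (by fun_prop) (pr (hZ.lipX e he i).continuousOn)
  have c2 : ContinuousOn (fun w : E n × E n => Z.Nc e w.1 ^ 2 - ∑ i, ∑ j, Z.g e w.1 i j *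
      (w.2 i + Z.Xc e i w.1) * (w.2 j + Z.Xc e j w.1)) (Prod.fst ⁻¹' Z.Om e) :=
    ((pr (hZ.lipN e he).continuousOn).pow 2).sub (continuousOn_finsetSum _ fun i _ =>
      continuousOn_finsetSum _ fun j _ =>
        ((pr (Z.D.met.sm e he i j).continuous.continuousOn).mul (c1 i)).mul (c1 j))
  have c3 : Continuous fun w : E n × E n => ‖px (e.symm w.1)‖ :=
    cont_npx.comp ((cont_symm he).comp continuous_fst)
  refine (tube ((eventually_nhdsWithin_iff.1 ((c2 (y, v) hy).eventually (lt_mem_nhds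
    (sub_pos.2 hv)))).and (c3.continuousAt.eventually (gt_mem_nhds hr)))).mono fun q k t0 m => ?_
  obtain ⟨z, w, t⟩ := q
  have c4 : Continuous fun r : ℝ => z + r • w := by fun_prop
  refine ⟨t0, fun r => e.symm (z + r • w), ⟨((cont_symm he).comp c4).continuousOn,
    fun s l => ⟨m s l, (k s l).2.le⟩, fun φ (hφ : Smooth φ) s s' h k1 k2 k3 k4 => ?_⟩,
    by simp, rfl⟩
  have d : ∀ r : ℝ, HasDerivAt (fun r : ℝ => loc e φ (z + r • w))
      (fderiv ℝ (loc e φ) (z + r • w) w) r := fun r =>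
    ((hφ e he).differentiable (by simp) _).hasFDerivAt.comp_hasDerivAt r
      (by simpa using ((hasDerivAt_id r).smul_const w).const_add z)
  refine (convex_Icc s s').image_sub_le_mul_sub_of_deriv_le (f := fun r => loc e φ (z + r • w))
    (fun r _ => (d r).continuousAt.continuousWithinAt)
    (fun r _ => (d r).differentiableAt.differentiableWithinAt) (fun r l => ?_) s ⟨le_rfl, k2⟩ s'
    ⟨k2, le_rfl⟩ k2
  have l' := interior_subset l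
  have l2 : r ∈ Icc 0 t := ⟨k1.trans l'.1, l'.2.trans k3⟩
  exact ((d r).deriv.trans_le (hm_ge hZ he hφ (m r l2)
    (sub_pos.1 ((k r l2).1 (m r l2))).le)).trans (k4 r l')

theorem segU (hZ : Z.Ok) (he : e ∈ At M) (hy : e.symm y ∈ Z.U) (hr : ‖px (e.symm y)‖ < ρ + 1)
    (hv : ∑ i, ∑ j, Z.g e y i j * (v i + Z.Xc e i y) * (v j + Z.Xc e j y) < Z.Nc e y ^ 2) :
    ∀ᶠ q : E n × E n × ℝ in 𝓝 (y, v, 0), 0 ≤ q.2.2 →
      RR Z ρ (e.symm q.1) (e.symm (q.1 + q.2.2 • q.2.1)) q.2.2 := by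
  filter_upwards [seg hZ he (hZ.sub _ hy).le hr hv, tube (v := v) (G := fun w => e.symm w.1 ∈ Z.U)
    (((cont_symm he).comp continuous_fst).continuousAt.eventually (hZ.op.mem_nhds hy))]
    with q k1 k2 t0 using k1 t0 fun s m => (hZ.sub _ (k2 s m)).le

theorem apx (hZ : Z.Ok) (he : e ∈ At M) (hy : e.symm y ∈ Z.U) (hr : ‖px (e.symm y)‖ < ρ + 1)
    (p : E n) (p0 : p ≠ 0) (κ : ℝ) (κ0 : 0 < κ) :
    ∃ v, ‖v - Vv (Z.g e) (Z.Nc e) (Z.Xc e) y p‖ ≤ κ ∧ ∀ᶠ q in 𝓝 y ×ˢ 𝓝[>] (0 : ℝ),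
      RR Z ρ (e.symm q.1) (e.symm (q.1 + q.2 • v)) q.2 := by
  have hm := (hZ.sub _ hy).le
  have n0 : 0 ≤ Z.Nc e y := hZ.nn _ hm
  rcases n0.eq_or_lt with k | k
  · have x0 : (fun i => Z.Xc e i y) = 0 := by
      by_contra l
      have := ((Z.D.met.rep he).g_pos y l).trans_le (sq_le hZ he hm)
      simp [← k] at this
    refine ⟨0, le_trans (le_of_eq ?_) κ0.le, ?_⟩
    · rw [norm_eq_zero, zero_sub, neg_eq_zero]
      ext i
      simp [Vv, ← k, congrFun x0 i]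
    · filter_upwards [tendsto_fst.eventually (((cont_symm he).continuousAt.eventually
        (hZ.op.mem_nhds hy)).and ((cont_npx.comp (cont_symm he)).continuousAt.eventually
          (gt_mem_nhds hr))), tendsto_snd.eventually self_mem_nhdsWithin] with q k1 k2
      rw [smul_zero, add_zero]
      exact (cur' hZ ρ).1 _ ⟨(hZ.sub _ k1.1).le, k1.2.le⟩ _ (le_of_lt k2)
  let w : E n := WithLp.toLp 2 fun i => Z.Nc e y * nu (Z.g e) y p i
  obtain ⟨δ, δ1, δ2⟩ : ∃ δ : ℝ, δ * ‖w‖ ≤ κ ∧ δ ∈ Ioo 0 1 :=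
    (((small tendsto_id _ κ0).filter_mono nhdsWithin_le_nhds).and (Ioo_mem_nhdsGT one_pos)).exists
  refine ⟨Vv (Z.g e) (Z.Nc e) (Z.Xc e) y p - δ • w, by
    rwa [sub_sub_cancel_left, norm_neg, norm_smul, Real.norm_of_nonneg δ2.1.le], ?_⟩
  have u := ((ham n _ _ (Z.Nc e) (Z.Xc e) (Z.D.met.rep he) (Z.D.smK e he)).1 y p p0).2.1
  have := segU (ρ := ρ) (v := Vv (Z.g e) (Z.Nc e) (Z.Xc e) y p - δ • w) hZ he hy hr (by
    refine lt_of_eq_of_lt (Eq.trans ?_ (congrArg (((1 - δ) * Z.Nc e y) ^ 2 * ·) u)) ?_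
    · simp only [Finset.mul_sum]
      refine Finset.sum_congr rfl fun i _ => Finset.sum_congr rfl fun j _ => ?_
      simp only [Vv, w, PiLp.sub_apply, PiLp.smul_apply, smul_eq_mul]
      ring
    · have := mul_pos (mul_pos δ2.1 (show 0 < 2 - δ by linarith [δ2.2])) (pow_pos k 2)
      linarith)
  filter_upwards [(tendsto_fst.prodMk_nhds (tendsto_const_nhds.prodMk_nhds
    (tendsto_snd.mono_right nhdsWithin_le_nhds))).eventually this,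
    tendsto_snd.eventually self_mem_nhdsWithin] with q k1 k2 using k1 (le_of_lt k2)

/-- the frame in the chart `e` -/
theorem fr (hZ : Z.Ok) (hb : Z.Bnd) (hn : Z.Ncc) (he : e ∈ At M) {τ : ℝ} {B : Set (E n)}
    (hB : IsCompact B) (hr : ∀ y ∈ B, ‖px (e.symm y)‖ < ρ + 1)
    (hτ : ∀ t < τ, ∀ x ∈ RS Z ρ t, x ∉ Z.Uᶜ) : ∃ C, Fr (Z.g e) (Z.K e) (Z.Nc e) (Z.Xc e)
      (fun y z => RR Z ρ (e.symm y) (e.symm z)) (fun t => e.symm ⁻¹' RS Z ρ t) (e.symm ⁻¹' Z.U)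
      B τ C := by
  choose b hb using fun k : Fin 4 => hb e he B k hB
  obtain ⟨C, hC⟩ := Finite.exists_le b
  have c := cont_symm he
  have kd := P366OC.kid n M Z ∅ hZ hn e he
  obtain ⟨k1, k2, k3, k4, -⟩ := cur' hZ ρ
  refine ⟨C, Z.D.met.rep he, Z.D.smK e he, rep_sy Z.D.syK e, ⟨hZ.op.preimage c,
    fun _ _ _ => k2 _ _ _, k3.preimage (f := fun q : E n × E n × ℝ =>
      (e.symm q.1, e.symm q.2.1, q.2.2)) (by fun_prop), fun _ _ _ _ => rs_of hZ,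
    fun t => (k4 t).preimage c, fun s t l x m => ?_, fun t l x m => not_not.1 (hτ t l _ m)⟩, hB,
    kd, fun x m l => ⟨⟨(kd x l).sN, fun i j => (hb ⟨i, by omega⟩ x m l).1.trans (hC _)⟩,
      fun k => ⟨(kd x l).sX k, fun i j => ((hb ⟨i, by omega⟩ x m l).2 k).trans (hC _)⟩⟩,
    fun x l => hZ.nn _ (hZ.sub _ l).le, fun x m l => k1 _ ⟨(hZ.sub _ l).le, (hr x m).le⟩ 0 le_rfl,
    fun x m l => apx hZ he l (hr x m)⟩
  obtain ⟨z, z1, z2⟩ := m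
  exact ⟨z, z1, add_sub_cancel s t ▸ k2 _ _ _ _ _ z2
    (k1 z (P366CU.rl_mem z2).2 _ (sub_nonneg.2 l))⟩

/-- a piece of the minimizer in the chart `e` -/
theorem cv (he : e ∈ At M) {τ a b η : ℝ} {c : ℝ → M} {z : E n}
    (A : Adm (CC Z ρ) {φ | Smooth φ} (HM Z) c a b) (a0 : 0 ≤ a) (η0 : 0 < η)
    (hs : ∀ s ∈ Icc a b, c s ∈ e.source ∧ e (c s) ∈ ball z η)
    (hm : ∀ s ∈ Icc a b, ∀ t < τ - s, c s ∉ RS Z ρ t) : Cv (Z.g e) (Z.Nc e) (Z.Xc e)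
      (fun t => e.symm ⁻¹' RS Z ρ t) (closedBall z (η + η)) τ (fun s => e (c s)) a b η := by
  refine ⟨a0, η0, e.continuousOn.comp A.cont fun s m => (hs s m).1, fun s m =>
    closedBall_subset_closedBall' (add_le_add le_rfl (hs s m).2.le),
    fun p s s' h k1 k2 k3 k4 => ?_, fun s m t l k => hm s m t l (e.left_inv (hs s m).1 ▸ k)⟩
  let χ : ContDiffBump z := ⟨η, 2 * η, η0, by linarith⟩
  have sm : Smooth (zx e fun y => χ y * ⟪p, y⟫) := cd_zx le_rfl he (isCompact_closedBall z (2 * η))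
    (fun y hy => by rw [χ.zero_of_le_dist (not_le.1 hy).le, zero_mul])
    (χ.contDiff.mul (contDiff_const.inner ℝ contDiff_id))
  have ev : ∀ y ∈ ball z η, loc e (zx e fun y => χ y * ⟪p, y⟫) =ᶠ[𝓝 y] innerSL ℝ p := fun y m => by
    filter_upwards [isOpen_ball.mem_nhds m] with w l
    rw [loc_zx he, χ.one_of_mem_closedBall (ball_subset_closedBall l), one_mul]
    rfl
  have m : ∀ r ∈ Icc s s', r ∈ Icc a b := fun r m => ⟨k1.trans m.1, m.2.trans k3⟩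
  have va : ∀ r ∈ Icc s s', zx e (fun y => χ y * ⟪p, y⟫) (c r) = ⟪p, e (c r)⟫ := fun r l =>
    (congrArg _ (e.left_inv (hs r (m r l)).1).symm).trans (ev _ (hs r (m r l)).2).self_of_nhds
  rw [inner_sub_right, ← va s ⟨le_rfl, k2⟩, ← va s' ⟨k2, le_rfl⟩]
  refine A.le _ sm s s' h k1 k2 k3 fun r l => le_trans (le_of_eq ?_) (k4 r l)
  refine (congrArg _ (e.left_inv (hs r (m r l)).1).symm).trans (hm_loc he sm fun i => ?_)
  rw [P366Z.pd_congr (ev _ (hs r (m r l)).2), P366Z.pd_of_hasFDerivAt (innerSL ℝ p).hasFDerivAt]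
  simp [EuclideanSpace.inner_single_right]

end Vale.Agent.P366IV
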