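import Vale.Agent.P366IV.Bar

/-!
# P366IV: the frame in a chart; propagation with exact jets and with rough jets
-/

open Set Filter Topology Metric
open scoped RealInnerProductSpace Nat
open Vale.Agent.P366.Stmt Vale.Agent.P366Z
open Vale.Agent.P354YQ (JB JD SA fderiv_ev)

noncomputable section

namespace Vale.Agent.P366IV

section Aff

variable {V W G : Type} [NormedAddCommGroup V] [NormedSpace ℝ V] [NormedAddCommGroup W]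
  [NormedSpace ℝ W] [NormedAddCommGroup G] [NormedSpace ℝ G] {H : W → G} {z : W} {A : V →L[ℝ] W}

theorem aff_jb {k : ℕ} {y : V} {C D : ℝ} (h : JB k H (z + A y) C) (hA : ‖A‖ ≤ D) (hD : 1 ≤ D) :
    JB k (fun y => H (z + A y)) y (k ! * C * D ^ k) :=
  JB.comp (f := fun y => z + A y) h (((JD.const z).add (JD.lin A)).mono (by linarith)) hD

theorem aff (h : SA H z) (y : V) : fderiv ℝ (fun y => H (z + A y)) 0 y = fderiv ℝ H z (A y) ∧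
    fderiv ℝ (fderiv ℝ fun y => H (z + A y)) 0 y y = fderiv ℝ (fderiv ℝ H) z (A y) (A y) := by
  have d : ∀ w, HasFDerivAt (fun y => z + A y) A w := fun w => A.hasFDerivAt.const_add z
  have z0 : z + A 0 = z := by simp
  have e := fderiv_ev (f := fun y => z + A y) (z := 0) (z0.symm ▸ h) (SA.of (by fun_prop))
  simp only [(d _).fderiv] at e
  refine ⟨by rw [e.self_of_nhds]; simp, ?_⟩
  have d2 : HasFDerivAt (fderiv ℝ H) (fderiv ℝ (fderiv ℝ H) z) (z + A 0) :=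
    z0.symm ▸ h.fderiv.diff.hasFDerivAt
  refine (congrArg (· y y) (e.fderiv_eq.trans
    ((d2.comp 0 (d 0)).clm_comp (hasFDerivAt_const A 0)).fderiv)).trans ?_
  simp

end Aff

variable {n : ℕ}

theorem norm_le_of {V : E n} {L : E n × E n →L[ℝ] ℝ} (h : ∀ η, L (0, η) = ⟪V, η⟫) : ‖V‖ ≤ ‖L‖ := by
  have := (le_abs_self _).trans (L.le_opNorm (0, V))
  rw [h, real_inner_self_eq_norm_mul_norm, Prod.norm_mk, norm_zero,
    max_eq_right (norm_nonneg _)] at this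
  rcases (norm_nonneg V).eq_or_lt with k | k
  exacts [k ▸ norm_nonneg L, le_of_mul_le_mul_right this k]

theorem norm_pr (A : Op n) (B : Op n) (hB : ‖B‖ ≤ 1) {q : ℝ} (h : ‖A‖ ≤ q) : ‖B.prod A‖ ≤ 1 + q := by
  rw [ContinuousLinearMap.opNorm_prod, Prod.norm_mk]
  exact max_le (by linarith [norm_nonneg A]) (by linarith)

theorem wb_mono {p : E n} {A : Op n} {r r' : ℝ} (h : r ≤ r') : Wb p A r ⊆ Wb p A r' :=
  fun _ k => ⟨k.1, k.2.trans h⟩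

variable (g K : Field n) (N : E n → ℝ) (X : Fin n → E n → ℝ) (R : E n → E n → ℝ → Prop)
  (Rc : ℝ → Set (E n)) (U B : Set (E n)) (τ C : ℝ)

/-- the frame in a chart -/
structure Fr : Prop where
  met : Met g
  smK : ∀ i j, Smooth fun x => K x i j
  syK : ∀ x i j, K x i j = K x j i
  rch : Rch R Rc U τ
  cpt : IsCompact B
  kid : ∀ x ∈ U, Kid g K N X x
  jb : ∀ x ∈ B, x ∈ U → JB 3 N x C ∧ ∀ i, JB 3 (X i) x C
  nn : ∀ x ∈ U, 0 ≤ N x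
  refl : ∀ x ∈ B, x ∈ U → R x x 0
  apx : ∀ x ∈ B, x ∈ U → ∀ p ≠ 0, ∀ κ > (0 : ℝ), ∃ v, ‖v - Vv g N X x p‖ ≤ κ ∧
    ∀ᶠ q in 𝓝 x ×ˢ 𝓝[>] (0 : ℝ), R q.1 (q.1 + q.2 • v) q.2

/-- a piece of the minimizer -/
structure Cv (c : ℝ → E n) (a b η : ℝ) : Prop where
  a0 : 0 ≤ a
  η0 : 0 < η
  cont : ContinuousOn c (Icc a b)
  ball : ∀ s ∈ Icc a b, closedBall (c s) η ⊆ B
  adm : ∀ p s s' h, a ≤ s → s ≤ s' → s' ≤ b → (∀ r ∈ Icc s s', Hm g N X (c r, p) ≤ h) →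
    ⟪p, c s' - c s⟫ ≤ h * (s' - s)
  min : ∀ s ∈ Icc a b, ∀ t < τ - s, c s ∉ Rc t

/-- bounds on the shell of covectors -/
def Sh (p : E n) (L : ℝ) : Prop := ∀ x ∈ B, x ∈ U → ∀ p', ‖p‖ / 3 ≤ ‖p'‖ → ‖p'‖ ≤ 2 * ‖p‖ →
  JB 3 (Hm g N X) (x, p') L ∧ |bt g K N x p'| ≤ L ∧ (∑ i, up g i i x) / wn g x p' ≤ L

variable {g K N X R Rc U B τ C} {c ξ : ℝ → E n} {Q : ℝ → Op n} {a b η ε L s : ℝ} {p : E n}

theorem Cv.mono (h : Cv g N X Rc B τ c a b η) {a' b' : ℝ} (ha : a ≤ a') (hb : b' ≤ b) :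
    Cv g N X Rc B τ c a' b' η :=
  have ss := Icc_subset_Icc ha hb
  ⟨h.a0.trans ha, h.η0, h.cont.mono ss, fun s m => h.ball s (ss m),
    fun p s s' k k1 k2 k3 => h.adm p s s' k (ha.trans k1) k2 (k3.trans hb), fun s m => h.min s (ss m)⟩

theorem Cv.mem (h : Cv g N X Rc B τ c a b η) (m : s ∈ Icc a b) : c s ∈ B :=
  h.ball s m (mem_closedBall_self h.η0.le)

theorem Cv.lip (h : Cv g N X Rc B τ c a b η) (hU : MapsTo c (Icc a b) U) (S : Sh g K N X U B p L)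
    (p0 : p ≠ 0) {s s' : ℝ} (k1 : a ≤ s) (k2 : s ≤ s') (k3 : s' ≤ b) :
    ‖c s' - c s‖ ≤ L / ‖p‖ * (s' - s) := by
  have p1 := norm_pos_iff.2 p0
  have m : ∀ r ∈ Icc s s', r ∈ Icc a b := fun r m => ⟨k1.trans m.1, m.2.trans k3⟩
  have key : ∀ p', ‖p'‖ = ‖p‖ → ∀ r ∈ Icc s s', ‖Hm g N X (c r, p')‖ ≤ L := fun p' e r l =>
    (S _ (h.mem (m r l)) (hU (m r l)) p' (by linarith) (by linarith)).1.zero
  rcases (norm_nonneg (c s' - c s)).eq_or_lt with k | k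
  · exact k ▸ mul_nonneg (div_nonneg ((norm_nonneg _).trans (key p rfl s ⟨le_rfl, k2⟩)) p1.le)
      (sub_nonneg.2 k2)
  have := h.adm ((‖p‖ / ‖c s' - c s‖) • (c s' - c s)) s s' L k1 k2 k3 fun r l =>
    (le_abs_self _).trans (key _ (by
      rw [norm_smul, Real.norm_of_nonneg (div_pos p1 k).le, div_mul_cancel₀ _ k.ne']) r l)
  rw [real_inner_smul_left, real_inner_self_eq_norm_mul_norm, ← mul_assoc,
    div_mul_cancel₀ _ k.ne'] at this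
  rw [div_mul_eq_mul_div, le_div_iff₀' p1]
  exact this

theorem Cv.ev (h : Cv g N X Rc B τ c a b η) (m : s ∈ Icc a b) (hs : SA (Hm g N X) (c s, p))
    {κ : ℝ} (κ0 : 0 < κ) : ∀ᶠ r in 𝓝[Icc a b] s, Hm g N X (c r, p) ≤ Hm g N X (c s, p) + κ :=
  (hs.cont.tendsto.comp ((h.cont s m).prodMk continuousWithinAt_const)).eventually
    (ge_mem_nhds (lt_add_of_pos_right _ κ0))

theorem Cv.adm_r (h : Cv g N X Rc B τ c a b η) (m : s ∈ Ico a b) (hs : SA (Hm g N X) (c s, p))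
    (κ : ℝ) (κ0 : 0 < κ) : ∀ᶠ r in 𝓝[>] s, ⟪p, c r - c s⟫ ≤ (Hm g N X (c s, p) + κ) * (r - s) := by
  obtain ⟨u, u1, u2⟩ := mem_nhdsGE_iff_exists_Icc_subset.1
    (nhdsWithin_le_of_mem (Icc_mem_nhdsGE_of_mem m) (h.ev (Ico_subset_Icc_self m) hs κ0))
  filter_upwards [Ioc_mem_nhdsGT (lt_min u1 m.2)] with r l
  exact h.adm p s r _ m.1 l.1.le (l.2.trans (min_le_right _ _)) fun t k =>
    u2 ⟨k.1, k.2.trans (l.2.trans (min_le_left _ _))⟩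

theorem Cv.adm_l (h : Cv g N X Rc B τ c a b η) (m : s ∈ Ioc a b) (hs : SA (Hm g N X) (c s, p))
    (κ : ℝ) (κ0 : 0 < κ) : ∀ᶠ r in 𝓝[<] s, ⟪p, c s - c r⟫ ≤ (Hm g N X (c s, p) + κ) * (s - r) := by
  obtain ⟨u, u1, u2⟩ := mem_nhdsLE_iff_exists_Icc_subset.1
    (nhdsWithin_le_of_mem (Icc_mem_nhdsLE_of_mem m) (h.ev (Ioc_subset_Icc_self m) hs κ0))
  filter_upwards [Ico_mem_nhdsLT (max_lt u1 m.1)] with r l
  exact h.adm p r s _ ((le_max_right _ _).trans l.1) l.2.le m.2 fun t k =>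
    u2 ⟨((le_max_left _ _).trans l.1).trans k.1, k.2⟩

theorem shell {x y : E n} {A : Op n} {r : ℝ} (p0 : p ≠ 0) (hx : ‖x - p‖ ≤ ‖p‖ / 2)
    (h : 6 * (‖A‖ * r) ≤ ‖p‖) : x ≠ 0 ∧ 3 * (‖A‖ * r) ≤ ‖x‖ ∧
      (‖y‖ ≤ r → ‖p‖ / 3 ≤ ‖x + A y‖ ∧ ‖x + A y‖ ≤ 2 * ‖p‖ ∧ x + A y ≠ 0) := by
  have p1 := norm_pos_iff.2 p0
  have k := abs_le.1 ((abs_norm_sub_norm_le x p).trans hx)
  refine ⟨norm_pos_iff.1 (by linarith [k.1]), by linarith [k.1], fun hy => ?_⟩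
  have k1 : ‖A y‖ ≤ ‖p‖ / 6 := by
    linarith [A.le_opNorm y, mul_le_mul_of_nonneg_left hy (norm_nonneg A)]
  have k2 := norm_sub_le (x + A y) (A y)
  rw [add_sub_cancel_right] at k2
  exact ⟨by linarith [k.1], by linarith [k.2, norm_add_le x (A y)],
    norm_pos_iff.1 (by linarith [k.1])⟩

theorem Fr.apx' (F : Fr g K N X R Rc U B τ C) : ∀ x ∈ B, x ∈ U → ∀ p ≠ 0, ∀ κ > (0 : ℝ),
    ∃ v, ‖v - Vv g N X x p‖ ≤ κ ∧ ∀ᶠ t in 𝓝[>] (0 : ℝ), R x (x + t • v) t := fun x m l p k κ κ0 =>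
  (F.apx x m l p k κ κ0).imp fun _ j => ⟨j.1, j.2.curry.self_of_nhds⟩

theorem zero_wb {z : E n} {A : Op n} {r : ℝ} (r0 : 0 < r) : 0 ∈ Wb z A r :=
  ⟨by simp [Pq], by simpa using r0.le⟩

/-- the formula of Taylor for the Hamiltonian -/
theorem tay3 (T : TAY) (hH : HAM) (F : Fr g K N X R Rc U B τ C) (S : Sh g K N X U B p L)
    (p0 : p ≠ 0) {x z y : E n} {A : Op n} {r q M : ℝ} (hz : ‖z - p‖ ≤ ‖p‖ / 2) (hA : ‖A‖ ≤ q)
    (r0 : 0 < r) (r2 : 6 * (‖A‖ * r) ≤ ‖p‖) (wB : ∀ y ∈ Wb z A r, x + y ∈ B ∧ x + y ∈ U)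
    (hM : M = 6 * L * (1 + q) ^ 3) (hy : y ∈ Wb z A r) :
    Hm g N X (x, z) + fderiv ℝ (Hm g N X) (x, z) (y, A y) + fderiv ℝ (fderiv ℝ (Hm g N X)) (x, z)
      (y, A y) (y, A y) / 2 - 8 * M * ‖y‖ ^ 3 ≤ Hm g N X (x + y, z + A y) ∧
    ‖Vv g N X (x + y) (z + A y) - Vv g N X x z‖ ≤ 2 * M * ‖y‖ ∧
    fderiv ℝ (Hm g N X) (x, z) (y, 0) - 8 * M * ‖y‖ ^ 2 ≤
      Hm g N X (x + y, z + A y) - Hm g N X (x, z + A y) := by
  have sh := fun w => shell (y := w) p0 hz r2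
  have w0 : x ∈ B ∧ x ∈ U := by simpa using wB 0 (zero_wb r0)
  have D1 : 1 ≤ 1 + q := by linarith [norm_nonneg A]
  obtain ⟨A1, a1, n1⟩ : ∃ A1 : E n →L[ℝ] E n × E n, (∀ w, A1 w = (w, A w)) ∧ ‖A1‖ ≤ 1 + q :=
    ⟨_, fun _ => rfl, norm_pr A _ ContinuousLinearMap.norm_id_le hA⟩
  obtain ⟨A2, a2, n2⟩ : ∃ A2 : E n →L[ℝ] E n × E n, (∀ w, A2 w = (0, A w)) ∧ ‖A2‖ ≤ 1 + q :=
    ⟨_, fun _ => rfl, norm_pr A 0 (by simp) hA⟩
  have j1 : ∀ w ∈ Wb z A r, JB 3 (Hm g N X) ((x, z) + A1 w) L := fun w hw => a1 w ▸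
    (S _ (wB w hw).1 (wB w hw).2 _ ((sh w).2.2 hw.2).1 ((sh w).2.2 hw.2).2.1).1
  have j2 : ∀ w ∈ Wb z A r, JB 3 (Hm g N X) ((x, z) + A2 w) L := fun w hw => by
    rw [a2, Prod.mk_add_mk, add_zero]
    exact (S _ w0.1 w0.2 _ ((sh w).2.2 hw.2).1 ((sh w).2.2 hw.2).2.1).1
  have L0 := (j1 y hy).nonneg
  have m3 : (3 ! : ℕ) * L * (1 + q) ^ 3 ≤ M := by norm_num [hM, Nat.factorial]
  have m1 : (1 ! : ℕ) * L * (1 + q) ^ 1 ≤ M := le_trans (by gcongr <;> norm_num) m3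
  have hp := fun x p k => ((hH n g K N X F.met F.smK).1 x p k).2.2.2.2
  have k0 := hp _ _ (sh 0).1 (F.kid _ w0.2).sN (F.kid _ w0.2).sX
  have k1 := hp _ _ ((sh y).2.2 hy.2).2.2 (F.kid _ (wB y hy).2).sN (F.kid _ (wB y hy).2).sX
  have ty := (T n _ _ _ r0 (sh 0).1 (sh 0).2.1).2
  have t1 := (ty _ (fun y => fderiv ℝ (Hm g N X) ((x, z) + A1 y)) M y hy).1 fun w hw =>
    ((aff_jb ((j1 w hw).jd.fderiv.ord one_le_two) n1 D1).mono m1).jd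
  have t2 := (ty ℝ (fun y => Hm g N X ((x, z) + A1 y)) M y hy).2
  have t3 := t2.2 fun w hw => ((aff_jb (j1 w hw) n1 D1).mono m3).jd
  have t4 := t2.1 fun w hw => ((aff_jb (j1 w hw) n1 D1).mono m3).jd.ord (by norm_num)
  have t5 := (ty ℝ (fun y => Hm g N X ((x, z) + A2 y)) M y hy).2.1 fun w hw =>
    ((aff_jb (j2 w hw) n2 D1).mono m3).jd.ord (by norm_num)
  rw [(aff k0.1 y).2] at t3
  rw [(aff k0.1 y).1] at t3 t4 t5
  simp only [map_zero, add_zero, Real.norm_eq_abs, smul_eq_mul, a1, a2, Prod.mk_add_mk]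
    at t1 t3 t4 t5
  have e : fderiv ℝ (Hm g N X) (x, z) (y, A y) =
      fderiv ℝ (Hm g N X) (x, z) (y, 0) + fderiv ℝ (Hm g N X) (x, z) (0, A y) := by
    rw [← map_add, Prod.mk_add_mk, add_zero, zero_add]
  refine ⟨by linarith [(abs_le.1 t3).1], (norm_le_of fun η => ?_).trans t1,
    by linarith [(abs_le.1 t4).1, (abs_le.1 t5).2]⟩
  rw [inner_sub_left, ← k1.2.2, ← k0.2.2]
  rfl

theorem ball_e {V0 V v : E n} {r M t : ℝ} (t0 : s < t) (r0 : 0 < r) (hv : ‖v - V‖ ≤ r / 2)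
    (hV : ‖V - V0‖ ≤ 2 * M * r) (l : ‖c t - c s - (t - s) • V0‖ ≤ r / 2 * ‖t - s‖) :
    ‖(t - s) • v - (c t - c s)‖ ≤ r * Real.exp ((2 * M + 1) * (t - s)) - r := by
  have t1 := sub_pos.2 t0
  have t4 : ‖v - V0‖ ≤ r / 2 + 2 * M * r :=
    (norm_sub_le_norm_sub_add_norm_sub _ _ _).trans (add_le_add hv hV)
  have t5 := norm_sub_le ((t - s) • (v - V0)) (c t - c s - (t - s) • V0)
  rw [norm_smul, smul_sub, Real.norm_of_nonneg t1.le, sub_sub_sub_cancel_right] at t5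
  rw [Real.norm_of_nonneg t1.le] at l
  have t7 := mul_le_mul_of_nonneg_left (Real.add_one_le_exp ((2 * M + 1) * (t - s))) r0.le
  linarith [mul_le_mul_of_nonneg_left t4 t1.le]

/-- propagation with the exact jets -/
theorem exa (T : TAY) (hH : HAM) (F : Fr g K N X R Rc U B τ C) (h : Cv g N X Rc B τ c a b η)
    (hU : MapsTo c (Icc a b) U) (S : Sh g K N X U B p L) (p0 : p ≠ 0) {q ρ M : ℝ} {I : Set ℝ}
    (hI : Icc a b ⊆ I) (J : ∀ s ∈ I, Jt g K N X ε I c ξ Q s ∧ ‖ξ s - p‖ ≤ ‖p‖ / 2 ∧ ‖Q s‖ ≤ q)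
    (d : ∀ s ∈ Icc a b, HasDerivWithinAt c (Vv g N X (c s) (ξ s)) (Icc a b) s) (ρ0 : 0 < ρ)
    (ρ1 : ρ ≤ η) (ρ2 : 6 * (q * ρ) ≤ ‖p‖) (hM : M = 6 * L * (1 + q) ^ 3) (ρ3 : 16 * M * ρ ≤ ε)
    (M0 : 0 ≤ M) (q0 : 0 ≤ q) (hb : ∀ y ∈ Wb (ξ b) (Q b) ρ, c b + y ∈ Rc (τ - b)) :
    ∀ s ∈ Icc a b, ∀ y ∈ Wb (ξ s) (Q s) (ρ * Real.exp ((2 * M + 1) * (s - b))),
      c s + y ∈ Rc (τ - s) := by
  choose! ξ' dξ eξ using fun s m => (J s m).1.dξ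
  choose! Q' dQ eQ using fun s m => (J s m).1.dQ
  obtain ⟨r, hr⟩ : ∃ r : ℝ → ℝ, ∀ s, r s = ρ * Real.exp ((2 * M + 1) * (s - b)) := ⟨_, fun _ => rfl⟩
  simp only [← hr]
  have r0 : ∀ s, 0 < r s := fun s => hr s ▸ mul_pos ρ0 (Real.exp_pos _)
  have r1 : ∀ s ∈ Icc a b, r s ≤ ρ := fun s m => hr s ▸ mul_le_of_le_one_right ρ0.le
    (Real.exp_le_one_iff.2 (mul_nonpos_of_nonneg_of_nonpos (by linarith) (sub_nonpos.2 m.2)))
  have r2 : ∀ s ∈ Icc a b, 6 * (‖Q s‖ * r s) ≤ ‖p‖ := fun s m => by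
    linarith [mul_le_mul (J s (hI m)).2.2 (r1 s m) (r0 s).le q0]
  have r3 : ∀ s ∈ Icc a b, closedBall (c s) (r s) ⊆ B := fun s m =>
    (closedBall_subset_closedBall ((r1 s m).trans ρ1)).trans (h.ball s m)
  have sh := fun s m y => shell (y := y) p0 (J s (hI m)).2.1 (r2 s m)
  refine prop2 (ρ := r) (W := Vv g N X) T F.rch F.cpt h.a0 h.cont
    (by rw [funext hr]; fun_prop) (fun s m => (dξ s (hI m)).mono hI)
    (fun s m => (dQ s (hI m)).mono hI) (fun s m => ⟨(J s (hI m)).1.sym, r0 s, (sh s m 0).1,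
      (sh s m 0).2.1, r3 s m⟩) F.refl F.apx' (fun s m => ⟨L / ‖p‖, mem_of_superset
        (Ioc_mem_nhdsGT m.2) fun t l => h.lip hU S p0 m.1 l.1.le l.2⟩) (fun s m wU y hy => ?_)
    (by rwa [hr, sub_self, mul_zero, Real.exp_zero, mul_one])
  have m' := Ico_subset_Icc_self m
  obtain ⟨t3, t1, -⟩ := tay3 T hH F S p0 (J s (hI m')).2.1 (J s (hI m')).2.2 (r0 s) (r2 s m')
    (fun z hz => ⟨r3 s m' (mem_closedBall_iff_norm.2 (by rw [add_sub_cancel_left]; exact hz.2)),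
      wU z hz⟩) hM hy
  have hp := fun x p k => (hH n g K N X F.met F.smK).1 x p k
  have dr := (d s m').mono_of_mem_nhdsWithin (Icc_mem_nhdsGT_of_mem m)
  refine ⟨⟨⟪ξ s + Q s y, Vv g N X (c s) (ξ s)⟫, fun κ κ0 => ?_, ?_⟩, r s / 2, half_pos (r0 s),
    fun v hv => ?_⟩
  · filter_upwards [((hasDerivWithinAt_const s _ (ξ s + Q s y)).inner ℝ dr).isLittleO.bound κ0,
      self_mem_nhdsWithin] with t l1 l2
    rw [Real.norm_of_nonneg (sub_pos.2 l2).le, Real.norm_eq_abs, smul_eq_mul, inner_zero_left,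
      add_zero, ← inner_sub_right] at l1
    linarith [(abs_le.1 l1).2]
  · have k0 := (hp _ _ (sh s m' 0).1).2.2.2.2 (F.kid _ (hU m')).sN (F.kid _ (hU m')).sX
    have e2 : fderiv ℝ (Hm g N X) (c s, ξ s) (y, Q s y) =
        -⟪ξ' s, y⟫ + ⟪Q s y, Vv g N X (c s) (ξ s)⟫ := by
      rw [eξ s (hI m'), neg_neg, real_inner_comm, ← k0.2.2, ← map_add, Prod.mk_add_mk, add_zero,
        zero_add]
    have e3 := eQ s (hI m') y y
    have e0 : 0 ≤ wn g (c s) (ξ s) := Real.sqrt_nonneg _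
    have e4 := mul_nonneg (div_nonneg (F.nn _ (hU m')) e0)
      ((hp (c s) _ (sh s m' 0).1).2.2.1 fun k => ∑ i, y i * Sg g K (c s) (ξ s) (Q s) i k)
    have e5 : 16 * M * ‖y‖ * ‖y‖ ^ 2 ≤ ε * ‖y‖ ^ 2 := mul_le_mul_of_nonneg_right
      ((mul_le_mul_of_nonneg_left (hy.2.trans (r1 s m')) (by linarith)).trans ρ3) (sq_nonneg _)
    rw [(hp _ _ ((sh s m' y).2.2 hy.2).2.2).1, e2, (hp _ _ (sh s m' 0).1).1] at t3
    rw [real_inner_self_eq_norm_sq] at e3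
    rw [inner_add_left (ξ s) (Q s y) (Vv g N X (c s) (ξ s))]
    linarith
  · filter_upwards [dr.isLittleO.bound (half_pos (r0 s)), self_mem_nhdsWithin] with t l1 l2
    refine (ball_e l2 (r0 s) hv (t1.trans (mul_le_mul_of_nonneg_left hy.2 (by linarith)))
      l1).trans_eq ?_
    rw [hr, hr, mul_assoc, ← Real.exp_add]
    ring_nf

/-- propagation with rough jets, for a short time -/
theorem rob (T : TAY) (hH : HAM) (F : Fr g K N X R Rc U B τ C) (h : Cv g N X Rc B τ c a b η)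
    (hU : MapsTo c (Icc a b) U) (S : Sh g K N X U B p L) (p0 : p ≠ 0) (L0 : 0 ≤ L)
    (J : ∀ s ∈ Icc a b, Jt g K N X ε (Icc a b) c ξ Q s ∧ ‖ξ s - p‖ ≤ ‖p‖ / 2) (hs : s ∈ Ioc a b)
    {A : Op n} {ρ : ℝ} (sy : Sym A) (ρ0 : 0 < ρ) (hb : ∀ y ∈ Wb (ξ s) A ρ, c s + y ∈ Rc (τ - s)) :
    ∀ᶠ r in 𝓝[<] s, ∃ A ρ, Sym A ∧ 0 < ρ ∧ ∀ y ∈ Wb (ξ r) A ρ, c r + y ∈ Rc (τ - r) := by
  choose! ξ' dξ eξ using fun s m => (J s m).1.dξ
  have p1 := norm_pos_iff.2 p0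
  obtain ⟨M, hM⟩ : ∃ M, M = 6 * L * (1 + (‖A‖ + 1)) ^ 3 := ⟨_, rfl⟩
  have M0 : 0 ≤ M := by rw [hM]; positivity
  obtain ⟨Λ, hΛ⟩ : ∃ Λ, Λ = L + 1 + L / ‖p‖ := ⟨_, rfl⟩
  have Λ0 : 0 ≤ Λ := by rw [hΛ]; positivity
  have t0 : Tendsto (fun r : ℝ => s - r) (𝓝[<] s) (𝓝 0) :=
    (Continuous.tendsto' (by fun_prop) _ _ (sub_self s)).mono_left nhdsWithin_le_nhds
  obtain ⟨ρ', ⟨k1, k2⟩, k3⟩ : ∃ ρ' : ℝ, (ρ' * (6 * (‖A‖ + 1)) ≤ ‖p‖ ∧ ρ' * 1 ≤ min ρ η) ∧ 0 < ρ' :=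
    ((((small tendsto_id _ p1).and (small tendsto_id 1 (lt_min ρ0 h.η0))).filter_mono
      nhdsWithin_le_nhds).and (self_mem_nhdsWithin (s := Ioi 0))).exists
  rw [mul_one, le_min_iff] at k2
  obtain ⟨u, ⟨u1, u2⟩, u3⟩ := (((small t0 (16 * M) one_pos).and
    (small t0 Λ (half_pos k3))).and (Ico_mem_nhdsLT hs.1)).exists
  obtain ⟨r, hr⟩ : ∃ r : ℝ → ℝ, ∀ t, r t = ρ' + Λ * (t - s) := ⟨_, fun _ => rfl⟩
  obtain ⟨P, hP⟩ : ∃ P : ℝ → Op n, ∀ t, P t = A + (16 * M * (t - s)) • 1 := ⟨_, fun _ => rfl⟩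
  have ss : Icc u s ⊆ Icc a b := Icc_subset_Icc u3.1 hs.2
  have r0 : ∀ t ∈ Icc u s, 0 < r t ∧ r t ≤ ρ' := fun t m => by
    rw [hr]
    constructor <;> nlinarith [m.1, m.2]
  have P1 : ∀ t ∈ Icc u s, ‖P t‖ ≤ ‖A‖ + 1 := fun t m => by
    have := norm_smul_le (16 * M * (t - s)) (1 : Op n)
    have o : ‖(1 : Op n)‖ ≤ 1 := ContinuousLinearMap.norm_id_le
    rw [Real.norm_eq_abs, abs_of_nonpos (by nlinarith [m.2])] at this
    rw [hP]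
    refine (norm_add_le _ _).trans (add_le_add le_rfl (this.trans ?_))
    exact mul_le_one₀ (by nlinarith [m.1]) (norm_nonneg _) o
  have P2 : ∀ t, Sym (P t) := fun t v w => by
    simp [hP, inner_add_left, inner_add_right, real_inner_smul_left, real_inner_smul_right, sy v w]
  have r2 : ∀ t ∈ Icc u s, 6 * (‖P t‖ * r t) ≤ ‖p‖ := fun t m => by
    linarith [mul_le_mul (P1 t m) (r0 t m).2 (r0 t m).1.le (by positivity)]
  have r3 : ∀ t ∈ Icc u s, closedBall (c t) (r t) ⊆ B := fun t m =>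
    (closedBall_subset_closedBall ((r0 t m).2.trans k2.2)).trans (h.ball t (ss m))
  have sh := fun t m y => shell (y := y) p0 (J t (ss m)).2 (r2 t m)
  have lp : ∀ t ∈ Ico u s, ∀ᶠ t' in 𝓝[>] t, ‖c t' - c t‖ ≤ L / ‖p‖ * (t' - t) := fun t m =>
    mem_of_superset (Ioc_mem_nhdsGT m.2) fun t' l =>
      h.lip hU S p0 (u3.1.trans m.1) l.1.le (l.2.trans hs.2)
  have := prop2 (ρ := r) (Q := P) (Q' := fun _ => (16 * M) • 1) (W := Vv g N X) T F.rch F.cpt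
    (h.a0.trans u3.1) (h.cont.mono ss) (by rw [funext hr]; fun_prop)
    (fun t m => (dξ t (ss m)).mono ss) (fun t m => by
      rw [funext hP]
      simpa using (((((hasDerivAt_id t).sub_const s).const_mul (16 * M)).smul_const
        (1 : Op n)).const_add A).hasDerivWithinAt)
    (fun t m => ⟨P2 t, (r0 t m).1, (sh t m 0).1, (sh t m 0).2.1, r3 t m⟩) F.refl F.apx'
    (fun t m => ⟨_, lp t m⟩) (fun t m wU y hy => ?_) fun y hy => hb y (wb_mono k2.1 (by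
      rwa [hP, hr, sub_self, mul_zero, mul_zero, zero_smul ℝ (1 : Op n), add_zero, add_zero] at hy))
  · filter_upwards [Ico_mem_nhdsLT u3.2] with t m
    exact ⟨_, _, P2 t, (r0 t (Ico_subset_Icc_self m)).1, this t (Ico_subset_Icc_self m)⟩
  have m' := Ico_subset_Icc_self m
  have wB : ∀ z ∈ Wb (ξ t) (P t) (r t), c t + z ∈ B ∧ c t + z ∈ U := fun z hz =>
    ⟨r3 t m' (mem_closedBall_iff_norm.2 (by rw [add_sub_cancel_left]; exact hz.2)), wU z hz⟩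
  obtain ⟨-, -, t2⟩ := tay3 T hH F S p0 (J t (ss m')).2 (P1 t m') (r0 t m').1 (r2 t m') wB hM hy
  have hp := fun x p k => (hH n g K N X F.met F.smK).1 x p k
  obtain ⟨s1, s2, s3⟩ := (sh t m' y).2.2 hy.2
  refine ⟨⟨_, h.adm_r ⟨u3.1.trans m.1, m.2.trans_le hs.2⟩
    (S _ (h.mem (ss m')) (hU (ss m')) _ s1 s2).1.sm, ?_⟩, 1, one_pos, fun v hv => ?_⟩
  · rw [eξ t (ss m'), ← (hp _ _ s3).1]
    simp only [smul_apply, one_apply_eq_self, real_inner_smul_left, real_inner_self_eq_norm_sq]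
    linarith
  · have k := (hp _ _ s3).2.2.2.2 (F.kid _ (wB y hy).2).sN (F.kid _ (wB y hy).2).sX
    have v1 := (norm_le_of k.2.2).trans (S _ (wB y hy).1 (wB y hy).2 _ s1 s2).1.jd.fderiv.zero
    have v2 := norm_le_norm_add_norm_sub' v (Vv g N X (c t + y) (ξ t + P t y))
    filter_upwards [lp t m, self_mem_nhdsWithin] with t' l1 l2
    have := norm_sub_le ((t' - t) • v) (c t' - c t)
    rw [norm_smul, Real.norm_of_nonneg (sub_pos.2 l2).le] at this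
    rw [hr, hr, hΛ]
    linarith [mul_le_mul_of_nonneg_left (show ‖v‖ ≤ L + 1 by linarith) (sub_pos.2 l2).le]

end Vale.Agent.P366IV
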