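import Vale.Agent.P366IV.Step1

/-!
# P366IV: the step in a chart
-/

open Set Filter Topology Metric
open scoped RealInnerProductSpace
open Vale.Agent.P366.Stmt Vale.Agent.P366Z
open Vale.Agent.P354YQ (JB JD SA)

noncomputable section

namespace Vale.Agent.P366IV

variable {n : ℕ} {g K : Field n} {N : E n → ℝ} {X : Fin n → E n → ℝ} {R : E n → E n → ℝ → Prop}
  {Rc : ℝ → Set (E n)} {U B : Set (E n)} {τ C : ℝ} {c ξ : ℝ → E n} {Q : ℝ → Op n}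
  {a b η ε L s : ℝ} {p : E n}

theorem lft (hH : HAM) (F : Fr g K N X R Rc U B τ C) (h : Cv g N X Rc B τ c a b η)
    (hU : MapsTo c (Icc a b) U) (S : Sh g K N X U B p L) (p0 : p ≠ 0) (hs : s ∈ Ioc a b) {z : E n}
    (z0 : z ≠ 0) {A : Op n} {ρ : ℝ} (ρ0 : 0 < ρ) (hb : ∀ y ∈ Wb z A ρ, c s + y ∈ Rc (τ - s)) :
    HasDerivWithinAt c (Vv g N X (c s) z) (Iic s) s := by
  have m := Ioc_subset_Icc_self hs
  have hp := fun p k => (hH n g K N X F.met F.smK).1 (c s) p k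
  have k := fun p k => (hp p k).2.2.2.2 (F.kid _ (hU m)).sN (F.kid _ (hU m)).sX
  have d := (k z z0).1.diff.hasFDerivAt.comp z (hasFDerivAt_prodMk_right (c s) z)
  refine left (H := fun p' => Hm g N X (c s, p')) (p := z) d.differentiableAt
    (fun v => (congrArg (· v) d.fderiv).trans ((k z z0).2.2 v))
    ((eventually_ne_nhds z0).mono fun p' l => h.adm_l hs (k p' l).1) fun κ κ0 => ?_
  rw [(hp z z0).1]
  exact left0 F.rch ρ0 κ0 (mem_of_superset (Ico_mem_nhdsLT hs.1) fun t l =>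
    h.lip hU S p0 l.1 l.2.le hs.2) hb (mem_of_superset (Ico_mem_nhdsLT hs.1) fun t l =>
      h.min t ⟨l.1, l.2.le.trans hs.2⟩) (F.apx _ (h.mem m) (hU m) z z0)

/-- the minimizer is a null generator, and the barriers propagate -/
theorem gen (T : TAY) (hH : HAM) (F : Fr g K N X R Rc U B τ C) (h : Cv g N X Rc B τ c a b η)
    (hU : MapsTo c (Icc a b) U) (S : Sh g K N X U B p L) (p0 : p ≠ 0) {q ρ M : ℝ} (hab : a ≤ b)
    (J : ∀ s ∈ Icc a b, Jt g K N X ε (Icc a b) c ξ Q s ∧ ‖ξ s - p‖ ≤ ‖p‖ / 2 ∧ ‖Q s‖ ≤ q)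
    (ρ0 : 0 < ρ) (ρ1 : ρ ≤ η) (ρ2 : 6 * (q * ρ) ≤ ‖p‖) (hM : M = 6 * L * (1 + q) ^ 3)
    (ρ3 : 16 * M * ρ ≤ ε) (L0 : 0 ≤ L) (q0 : 0 ≤ q)
    (hb : ∀ y ∈ Wb (ξ b) (Q b) ρ, c b + y ∈ Rc (τ - b)) :
    (∀ s ∈ Icc a b, HasDerivWithinAt c (Vv g N X (c s) (ξ s)) (Icc a b) s) ∧
      ∀ y ∈ Wb (ξ a) (Q a) (ρ * Real.exp ((2 * M + 1) * (a - b))), c a + y ∈ Rc (τ - a) := by
  have z0 : ∀ s ∈ Icc a b, ξ s ≠ 0 := fun s m =>
    (shell (y := 0) (A := 0) (r := 0) p0 (J s m).2.1 (by simp)).1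
  have cV : ContinuousOn (fun s => Vv g N X (c s) (ξ s)) (Icc a b) := fun s m => by
    obtain ⟨_, d, -⟩ := (J s m).1.dξ
    exact ((((hH n g K N X F.met F.smK).1 _ _ (z0 s m)).2.2.2.2 (F.kid _ (hU m)).sN
      (F.kid _ (hU m)).sX).2.1.tendsto.comp ((h.cont s m).prodMk d.continuousWithinAt) :)
  have key : ∀ s ∈ Icc a b, (∀ r ∈ Ioc s b, ∃ A ρ, Sym A ∧ 0 < ρ ∧
      ∀ y ∈ Wb (ξ r) A ρ, c r + y ∈ Rc (τ - r)) →
      (∀ r ∈ Icc s b, HasDerivWithinAt c (Vv g N X (c r) (ξ r)) (Icc s b) r) ∧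
      ∀ y ∈ Wb (ξ s) (Q s) (ρ * Real.exp ((2 * M + 1) * (s - b))), c s + y ∈ Rc (τ - s) := by
    intro s m k
    have ss : Icc s b ⊆ Icc a b := Icc_subset_Icc_left m.1
    have d := lc1 (h.cont.mono ss) (cV.mono ss) fun r l => by
      obtain ⟨A, ρ', -, k1, k2⟩ := k r l
      exact lft hH F h hU S p0 ⟨m.1.trans_lt l.1, l.2⟩ (z0 r (ss (Ioc_subset_Icc_self l))) k1 k2
    exact ⟨d, exa T hH F (h.mono m.1 le_rfl) (hU.mono_left ss) S p0 ss J d ρ0 ρ1 ρ2 hM ρ3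
      (by rw [hM]; positivity) q0 hb s ⟨le_rfl, m.2⟩⟩
  refine key a ⟨le_rfl, hab⟩ fun r l => back (p := fun r => ∃ A ρ, Sym A ∧ 0 < ρ ∧
    ∀ y ∈ Wb (ξ r) A ρ, c r + y ∈ Rc (τ - r)) ⟨_, _, (J b ⟨hab, le_rfl⟩).1.sym, ρ0, hb⟩
    (fun s m k => ⟨_, _, (J s (Ico_subset_Icc_self m)).1.sym, mul_pos ρ0 (Real.exp_pos _),
      (key s (Ico_subset_Icc_self m) k).2⟩) (fun s m k => ?_) r (Ioc_subset_Icc_self l)
  obtain ⟨A, ρ', k0, k1, k2⟩ := k s ⟨le_rfl, m.2⟩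
  exact rob T hH F h hU S p0 L0 (fun s m => ⟨(J s m).1, (J s m).2.1⟩) m k0 k1 k2

/-- the step with uniform constants -/
theorem stq (hJ : JET) (hR : RAY) (T : TAY) (hH : HAM) (F : Fr g K N X R Rc U B τ C) :
    ∃ Δ > (0 : ℝ), ∀ (c : ℝ → E n) (a b η ρ : ℝ) (p : E n) (A : Op n), Cv g N X Rc B τ c a b η →
      MapsTo c (Ioc a b) U → b ≤ a + Δ → p ≠ 0 → Sym A → 0 < ρ → 0 < Th g K (c b) p A →
      (∀ y ∈ Wb p A ρ, c b + y ∈ Rc (τ - b)) → ∃ ρ' > (0 : ℝ), ∃ θ > (0 : ℝ), ∃ q : ℝ,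
        ∀ s ∈ Ioc a b, ∃ z : E n × Op n, z ∈ closedBall p (‖p‖ / 2) ×ˢ closedBall 0 q ∧ Sym z.2 ∧
          θ ≤ Th g K (c s) z.1 z.2 ∧ ∀ y ∈ Wb z.1 z.2 ρ', c s + y ∈ Rc (τ - s) := by
  obtain ⟨Δ, Δ0, hΔ⟩ := hJ n g K N X B (B ∩ U) C F.met F.smK F.syK F.cpt inter_subset_left
    fun x m => F.jb x m.1 m.2
  refine ⟨Δ, Δ0, fun c a b η ρ p A h hU hb p0 sy ρ0 θ0 gd => ?_⟩
  have p1 := norm_pos_iff.2 p0
  obtain ⟨L', hL⟩ := (hH n g K N X F.met F.smK).2.2 B C (‖p‖ / 3) (2 * ‖p‖) F.cpt (by linarith)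
  obtain ⟨L, L0, S⟩ : ∃ L, 0 ≤ L ∧ Sh g K N X U B p L := ⟨max L' 0, le_max_right _ _,
    fun x m l p' k1 k2 => (hL x m (F.jb x m l) p' k1 k2).imp (·.mono (le_max_left _ _))
      (And.imp (·.trans (le_max_left _ _)) (·.trans (le_max_left _ _)))⟩
  obtain ⟨q, hq⟩ : ∃ q, q = 2 * ‖A‖ + ‖p‖ + 1 := ⟨_, rfl⟩
  have q0 : 0 ≤ q := by rw [hq]; positivity
  obtain ⟨M, hM⟩ : ∃ M, M = 6 * L * (1 + q) ^ 3 := ⟨_, rfl⟩
  have M0 : 0 ≤ M := by rw [hM]; positivity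
  have θ1 := mul_pos θ0 (Real.exp_pos ((L + 1) * -Δ))
  obtain ⟨ε, ε1, ε2⟩ : ∃ ε : ℝ, ε * L ≤ Th g K (c b) p A * Real.exp ((L + 1) * -Δ) / 2 ∧
      ε ∈ Ioo 0 1 := (((small tendsto_id L (half_pos θ1)).filter_mono nhdsWithin_le_nhds).and
    (Ioo_mem_nhdsGT one_pos)).exists
  obtain ⟨r, ⟨r1, r2⟩, r3⟩ : ∃ r : ℝ, (r * (6 * q) ≤ ‖p‖ ∧ r * (16 * M) ≤ ε) ∧
      r ∈ Ioo 0 (min ρ η) := ((((small tendsto_id _ p1).and
    (small tendsto_id _ ε2.1)).filter_mono nhdsWithin_le_nhds).and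
      (Ioo_mem_nhdsGT (lt_min ρ0 h.η0))).exists
  refine ⟨_, mul_pos r3.1 (Real.exp_pos ((2 * M + 1) * -Δ)), _, θ1, q, fun s m => ?_⟩
  have h' := h.mono m.1.le le_rfl
  have hU' : MapsTo c (Icc s b) U := fun t l => hU ⟨m.1.trans_le l.1, l.2⟩
  obtain ⟨ξ, Q, e1, e2, J⟩ := hΔ s b ε c p A m.2 (by linarith [m.1]) (Ioo_subset_Icc_self ε2)
    h'.cont (fun t l => ⟨h'.mem l, hU' l⟩) p0 sy
  rw [← hq] at J
  obtain ⟨d, gs⟩ := gen T hH F h' hU' S p0 m.2 J r3.1 (r3.2.le.trans (min_le_right _ _))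
    (by linarith) hM (by linarith) L0 q0 fun y hy => gd y (wb_mono (r3.2.le.trans
      (min_le_left _ _)) (e1 ▸ e2 ▸ hy))
  have ms : s ∈ Icc s b := ⟨le_rfl, m.2⟩
  have sb : -Δ ≤ s - b := by linarith [m.1]
  have k : Th g K (c b) p A * Real.exp ((L + 1) * -Δ) ≤
      Th g K (c b) (ξ b) (Q b) * Real.exp ((L + 1) * (s - b)) := by
    rw [e1, e2]
    gcongr
  refine ⟨(ξ s, Q s), ⟨mem_closedBall_iff_norm.2 (J s ms).2.1,
    mem_closedBall_zero_iff.2 (J s ms).2.2⟩, (J s ms).1.sym, k.trans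
    (gron (θ := fun r => Th g K (c r) (ξ r) (Q r)) (δ := ε * L) (by linarith)
      (mul_nonneg ε2.1.le L0) L0 m.2 fun t l => ?_), fun y hy => gs y (wb_mono ?_ hy)⟩
  · obtain ⟨z0, -, z1⟩ := shell (y := 0) (A := 0) (r := 0) p0 (J t l).2.1 (by simp)
    obtain ⟨z2, z3, -⟩ := z1 (by simp)
    rw [map_zero, add_zero] at z2 z3
    obtain ⟨-, s1, s2⟩ := S _ (h'.mem l) (hU' l) _ z2 z3
    obtain ⟨θ', t1, t2⟩ := hR n g K N X ε t _ c ξ Q F.met F.smK F.syK (F.kid _ (hU' l)) z0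
      ε2.1.le (d t l) (J t l).1
    refine ⟨θ', _, t1, (le_abs_self _).trans s1, t2.trans (add_le_add le_rfl ?_)⟩
    rw [mul_div_assoc]
    exact mul_le_mul_of_nonneg_left s2 ε2.1.le
  · have := r3.1
    gcongr

/-- **STEP** -/
theorem step (hJ : JET) (hR : RAY) (T : TAY) (hH : HAM) (F : Fr g K N X R Rc U B τ C) :
    ∃ Δ > (0 : ℝ), ∀ (c : ℝ → E n) (a b η ρ : ℝ) (p : E n) (A : Op n), Cv g N X Rc B τ c a b η →
      MapsTo c (Ioc a b) U → a < b → b ≤ a + Δ → p ≠ 0 → Sym A → 0 < ρ → 0 < Th g K (c b) p A →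
      (∀ y ∈ Wb p A ρ, c b + y ∈ Rc (τ - b)) → ∃ p' A', p' ≠ 0 ∧ Sym A' ∧ 0 < Th g K (c a) p' A' ∧
        ∀ᶠ y in 𝓝 (0 : E n), 0 < Pq p' A' y → c a + y ∈ Rc (τ - a) ∧ c a + y ∈ U := by
  obtain ⟨Δ, Δ0, hΔ⟩ := stq hJ hR T hH F
  refine ⟨Δ, Δ0, fun c a b η ρ p A h hU hab hb p0 sy ρ0 θ0 gd => ?_⟩
  obtain ⟨ρ', ρ1, θ, θ1, q, k⟩ := hΔ c a b η ρ p A h hU hb p0 sy ρ0 θ0 gd
  obtain ⟨u, -, u1, u2⟩ := exists_seq_strictAnti_tendsto' hab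
  choose z z1 z2 z3 z4 using fun i => k (u i) (Ioo_subset_Ioc_self (u1 i))
  have : ProperSpace (Op n) := FiniteDimensional.proper ℝ (Op n)
  obtain ⟨w, w1, φ, φ1, φ2⟩ :=
    ((isCompact_closedBall _ _).prod (isCompact_closedBall _ _)).tendsto_subseq z1
  have t0 : Tendsto (fun i => c (u (φ i))) atTop (𝓝 (c a)) := (h.cont a ⟨le_rfl, hab.le⟩).tendsto.comp
    (tendsto_nhdsWithin_iff.2 ⟨u2.comp φ1.tendsto_atTop, .of_forall fun i =>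
      Ioo_subset_Icc_self (u1 _)⟩)
  have t1 : Tendsto (fun i => (z (φ i)).1) atTop (𝓝 w.1) := (continuous_fst.tendsto w).comp φ2
  have t2 : Tendsto (fun i => (z (φ i)).2) atTop (𝓝 w.2) := (continuous_snd.tendsto w).comp φ2
  have ap : ∀ {v : ℕ → E n} {v0}, Tendsto v atTop (𝓝 v0) →
      Tendsto (fun i => (z (φ i)).2 (v i)) atTop (𝓝 (w.2 v0)) := fun hv =>
    (isBoundedBilinearMap_apply.continuous.tendsto _).comp (t2.prodMk_nhds hv)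
  have w0 := (shell (y := 0) (A := 0) (r := 0) p0 (mem_closedBall_iff_norm.1 w1.1) (by simp)).1
  refine ⟨w.1, w.2, w0, fun v v' => tendsto_nhds_unique ((ap tendsto_const_nhds).inner
    tendsto_const_nhds) ((tendsto_const_nhds.inner (ap tendsto_const_nhds)).congr fun i =>
      (z2 _ v v').symm), θ1.trans_le (ge_of_tendsto' ((((hH n g K N X F.met F.smK).1 _ _
        w0).2.2.2.1 w.2).tendsto.comp (t0.prodMk_nhds (t1.prodMk_nhds t2))) fun i => z3 _), ?_⟩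
  filter_upwards [ball_mem_nhds 0 ρ1] with y hy hP
  have t3 : Tendsto (fun i => c a + y - c (u (φ i))) atTop (𝓝 y) := by
    simpa using (tendsto_const_nhds (x := c a + y)).sub t0
  obtain ⟨i, i1, i2⟩ := ((((t1.inner t3).add (((ap t3).inner t3).div_const 2)).eventually
    (lt_mem_nhds hP)).and (t3.norm.eventually (gt_mem_nhds (mem_ball_zero_iff.1 hy)))).exists
  have := z4 (φ i) _ ⟨i1.le, i2.le⟩
  rw [add_sub_cancel] at this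
  have v := (u1 (φ i)).1
  exact ⟨F.rch.mono _ _ (by linarith) this, F.rch.sub _ (by linarith [h.a0]) this⟩

end Vale.Agent.P366IV
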